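import Mathlib
import Vale.Agent.Lib.P328.RP.BoxDual

/-!
P328: the reservoir column.  Three-row tables with margins `r = (r 0, r 1, 1)` and column sums
`c` such that one column `j0` has `c j0 ≥ max (r 0) (r 1) + 1` satisfy the three-row inequality.

In the box formulation (`BoxDual`): the column `j0` is never full on the lower level `q` and
never empty on the upper level `q + 1`.  With `θ l = φ l / (c l + 1)` for `l ≠ j0` and
`X u = ∑ l ≠ j0, θ l * (c l - u l)` the certificate is

* `Z1 u l = θ l * (c l - u l)`, `Z2 u l = θ l * (u l + 1)` for `l ≠ j0`,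
* `Z1 u j0 = - X u`, `Z2 u j0 = φ j0 + X u`.

The cross term is `∑ u, (φ j0 ^ 2 / 4 + (1 / 2) * ∑ l ≠ j0, θ l ^ 2 * (c l - u l) * (u l + 1))`
by a summation by parts on the box of the other columns.
-/

namespace Vale.Agent.Lib.P328.RP

open Finset
open Vale.Agent.Lib.P335.Bip

namespace Reservoir

/-- the full box `∏ j, [0, c j]` -/
def Box {n : ℕ} (c : Fin n → ℕ) : Finset (Fin n → ℕ) :=
  Fintype.piFinset (fun j => Finset.range (c j + 1))

theorem mem_Box {n : ℕ} (c : Fin n → ℕ) (u : Fin n → ℕ) : u ∈ Box c ↔ ∀ j, u j ≤ c j := by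
  unfold Box
  rw [Fintype.mem_piFinset]
  constructor
  · intro h j
    exact Nat.lt_succ_iff.mp (Finset.mem_range.mp (h j))
  · intro h j
    exact Finset.mem_range.mpr (Nat.lt_succ_of_le (h j))

/-- shifting one coordinate of the box by one -/
theorem sum_shift {n : ℕ} (c : Fin n → ℕ) (l : Fin n) (F : (Fin n → ℕ) → ℝ) :
    ∑ u ∈ (Box c).filter (fun u => u l < c l), F (Function.update u l (u l + 1))
      = ∑ v ∈ (Box c).filter (fun v => 1 ≤ v l), F v := by
  classical
  refine Finset.sum_bij' (fun u _ => Function.update u l (u l + 1))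
    (fun v _ => Function.update v l (v l - 1)) ?_ ?_ ?_ ?_ ?_
  · intro u hu
    rw [Finset.mem_filter, mem_Box] at hu ⊢
    refine ⟨fun j => ?_, ?_⟩
    · by_cases hj : j = l
      · rw [hj, Function.update_self]
        omega
      · rw [Function.update_of_ne hj]
        exact hu.1 j
    · rw [Function.update_self]
      omega
  · intro v hv
    rw [Finset.mem_filter, mem_Box] at hv ⊢
    refine ⟨fun j => ?_, ?_⟩
    · by_cases hj : j = l
      · rw [hj, Function.update_self]
        have := hv.1 l
        omega
      · rw [Function.update_of_ne hj]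
        exact hv.1 j
    · rw [Function.update_self]
      have := hv.1 l
      omega
  · intro u _
    show Function.update (Function.update u l (u l + 1)) l
      ((Function.update u l (u l + 1)) l - 1) = u
    rw [Function.update_self, Function.update_idem, Nat.add_sub_cancel,
      Function.update_eq_self]
  · intro v hv
    rw [Finset.mem_filter] at hv
    show Function.update (Function.update v l (v l - 1)) l
      ((Function.update v l (v l - 1)) l + 1) = v
    rw [Function.update_self, Function.update_idem, Nat.sub_add_cancel hv.2,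
      Function.update_eq_self]
  · intro u _
    rfl

/-- summation by parts in the direction `l` on the box -/
theorem ibp {n : ℕ} (c : Fin n → ℕ) (l : Fin n) (h : (Fin n → ℕ) → ℝ) :
    ∑ u ∈ Box c, ((c l : ℝ) - 2 * (u l : ℝ)) * h u
      = ∑ u ∈ Box c, ((u l : ℝ) + 1) * ((c l : ℝ) - (u l : ℝ))
          * (h u - h (Function.update u l (u l + 1))) := by
  classical
  have h1 : ∑ u ∈ Box c, ((u l : ℝ) + 1) * ((c l : ℝ) - (u l : ℝ))
        * h (Function.update u l (u l + 1))
      = ∑ v ∈ Box c, (v l : ℝ) * ((c l : ℝ) - (v l : ℝ) + 1) * h v := by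
    have ha : ∑ u ∈ (Box c).filter (fun u => u l < c l), ((u l : ℝ) + 1)
          * ((c l : ℝ) - (u l : ℝ)) * h (Function.update u l (u l + 1))
        = ∑ u ∈ Box c, ((u l : ℝ) + 1) * ((c l : ℝ) - (u l : ℝ))
          * h (Function.update u l (u l + 1)) := by
      apply Finset.sum_filter_of_ne
      intro u hu hne
      by_contra hlt
      apply hne
      have hle := (mem_Box c u).mp hu l
      have heq : u l = c l := by omega
      rw [heq]
      ring
    have hb : ∑ v ∈ (Box c).filter (fun v => 1 ≤ v l), (v l : ℝ)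
          * ((c l : ℝ) - (v l : ℝ) + 1) * h v
        = ∑ v ∈ Box c, (v l : ℝ) * ((c l : ℝ) - (v l : ℝ) + 1) * h v := by
      apply Finset.sum_filter_of_ne
      intro v _ hne
      by_contra hlt
      apply hne
      have heq : v l = 0 := by omega
      rw [heq]
      simp
    rw [← ha, ← hb,
      ← sum_shift c l (fun v => (v l : ℝ) * ((c l : ℝ) - (v l : ℝ) + 1) * h v)]
    apply Finset.sum_congr rfl
    intro u _
    rw [Function.update_self]
    push_cast
    ring
  have h2 : ∑ u ∈ Box c, ((u l : ℝ) + 1) * ((c l : ℝ) - (u l : ℝ))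
        * (h u - h (Function.update u l (u l + 1)))
      = ∑ u ∈ Box c, ((u l : ℝ) + 1) * ((c l : ℝ) - (u l : ℝ)) * h u
        - ∑ u ∈ Box c, ((u l : ℝ) + 1) * ((c l : ℝ) - (u l : ℝ))
          * h (Function.update u l (u l + 1)) := by
    rw [← Finset.sum_sub_distrib]
    apply Finset.sum_congr rfl
    intro u _
    ring
  rw [h2, h1, ← Finset.sum_sub_distrib]
  apply Finset.sum_congr rfl
  intro u _
  ring

/-- counting the vertices of the box at which the coordinate `l` is free -/
theorem sum_free {n : ℕ} (c : Fin n → ℕ) (l : Fin n) :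
    ∑ u ∈ Box c, (if u l < c l then (c l : ℝ) + 1 else 0)
      = ((Box c).card : ℝ) * (c l : ℝ) := by
  classical
  have h1 := sum_shift c l (fun v => (v l : ℝ))
  have h2 : ∑ v ∈ (Box c).filter (fun v => 1 ≤ v l), (v l : ℝ) = ∑ v ∈ Box c, (v l : ℝ) := by
    apply Finset.sum_filter_of_ne
    intro v _ hne
    by_contra hlt
    apply hne
    have heq : v l = 0 := by omega
    rw [heq]
    simp
  have h3 : ∑ u ∈ (Box c).filter (fun u => u l < c l),
        ((Function.update u l (u l + 1)) l : ℝ)
      = ∑ u ∈ Box c, (if u l < c l then (u l : ℝ) + 1 else 0) := by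
    rw [Finset.sum_filter]
    apply Finset.sum_congr rfl
    intro u _
    rw [Function.update_self]
    push_cast
    rfl
  rw [h3, h2] at h1
  have h4 : ∑ u ∈ Box c, ((if u l < c l then (c l : ℝ) + 1 else 0) - (c l : ℝ))
      = ∑ u ∈ Box c, ((if u l < c l then (u l : ℝ) + 1 else 0) - (u l : ℝ)) := by
    apply Finset.sum_congr rfl
    intro u hu
    have hle := (mem_Box c u).mp hu l
    by_cases hlt : u l < c l
    · rw [if_pos hlt, if_pos hlt]
      ring
    · rw [if_neg hlt, if_neg hlt]
      have heq : u l = c l := by omega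
      rw [heq]
  rw [Finset.sum_sub_distrib, Finset.sum_sub_distrib, h1, sub_self, Finset.sum_const,
    nsmul_eq_mul] at h4
  linarith

/-- **Transfer**: when the column `j0` is never full on the level `q` and the other columns
fit below `q`, the level `q` of the box is the full box of the other columns. -/
theorem sum_Lev_box {n : ℕ} (c : Fin n → ℕ) (q : ℕ) (j0 : Fin n) (h1 : q + 1 ≤ c j0)
    (h2 : ∑ l, c l ≤ q + c j0) (g : (Fin n → ℕ) → ℝ) :
    ∑ u ∈ Lev c q, g (Function.update u j0 0)
      = ∑ v ∈ Box (Function.update c j0 0), g v := by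
  classical
  have hc := Finset.add_sum_erase univ c (Finset.mem_univ j0)
  refine Finset.sum_bij' (fun u _ => Function.update u j0 0)
    (fun v _ => Function.update v j0 (q - ∑ j, v j)) ?_ ?_ ?_ ?_ ?_
  · intro u hu
    rw [mem_Lev] at hu
    rw [mem_Box]
    intro j
    by_cases hj : j = j0
    · rw [hj, Function.update_self, Function.update_self]
    · rw [Function.update_of_ne hj, Function.update_of_ne hj]
      exact hu.1 j
  · intro v hv
    rw [mem_Box] at hv
    have hv0 : v j0 = 0 := by
      have := hv j0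
      rw [Function.update_self] at this
      omega
    have hvj : ∀ j, j ≠ j0 → v j ≤ c j := by
      intro j hj
      have := hv j
      rw [Function.update_of_ne hj] at this
      exact this
    have hve := Finset.add_sum_erase univ v (Finset.mem_univ j0)
    have hle : ∑ j ∈ univ.erase j0, v j ≤ ∑ j ∈ univ.erase j0, c j :=
      Finset.sum_le_sum (fun j hj => hvj j (Finset.ne_of_mem_erase hj))
    have hue := Finset.add_sum_erase univ (Function.update v j0 (q - ∑ j, v j))
      (Finset.mem_univ j0)
    have hue2 : ∑ j ∈ univ.erase j0, Function.update v j0 (q - ∑ j, v j) j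
        = ∑ j ∈ univ.erase j0, v j :=
      Finset.sum_congr rfl (fun j hj => Function.update_of_ne (Finset.ne_of_mem_erase hj) _ _)
    rw [Function.update_self, hue2] at hue
    rw [mem_Lev]
    refine ⟨fun j => ?_, ?_⟩
    · by_cases hj : j = j0
      · rw [hj, Function.update_self]
        omega
      · rw [Function.update_of_ne hj]
        exact hvj j hj
    · omega
  · intro u hu
    rw [mem_Lev] at hu
    have hue := Finset.add_sum_erase univ u (Finset.mem_univ j0)
    have hue1 := Finset.add_sum_erase univ (Function.update u j0 0) (Finset.mem_univ j0)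
    have hue2 : ∑ j ∈ univ.erase j0, Function.update u j0 0 j
        = ∑ j ∈ univ.erase j0, u j :=
      Finset.sum_congr rfl (fun j hj => Function.update_of_ne (Finset.ne_of_mem_erase hj) _ _)
    rw [Function.update_self, hue2] at hue1
    show Function.update (Function.update u j0 0) j0 (q - ∑ j, Function.update u j0 0 j) = u
    have hq : q - ∑ j, Function.update u j0 0 j = u j0 := by omega
    rw [hq, Function.update_idem, Function.update_eq_self]
  · intro v hv
    rw [mem_Box] at hv
    have hv0 : v j0 = 0 := by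
      have := hv j0
      rw [Function.update_self] at this
      omega
    show Function.update (Function.update v j0 (q - ∑ j, v j)) j0 0 = v
    rw [Function.update_idem, ← hv0, Function.update_eq_self]
  · intro u _
    rfl

/-- the centring condition in closed form -/
theorem centre_eq {n : ℕ} (c : Fin n → ℕ) (q : ℕ) (j0 : Fin n) (h1 : q + 1 ≤ c j0)
    (h2 : ∑ l, c l ≤ q + c j0) (φ θ : Fin n → ℝ) (hθ0 : θ j0 = 0)
    (hθ : ∀ j, j ≠ j0 → φ j = θ j * ((c j : ℝ) + 1)) :
    ∑ u ∈ Lev c q, ∑ j ∈ univ.filter (fun j : Fin n => u j < c j), φ j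
      = ((Box (Function.update c j0 0)).card : ℝ) * (φ j0 + ∑ j, θ j * (c j : ℝ)) := by
  classical
  obtain ⟨g, hg⟩ : ∃ g : (Fin n → ℕ) → ℝ, ∀ v, g v = φ j0 + ∑ j, θ j *
      (if v j < Function.update c j0 0 j then ((Function.update c j0 0 j : ℕ) : ℝ) + 1
        else 0) := ⟨_, fun _ => rfl⟩
  have hA : ∀ u ∈ Lev c q, ∑ j ∈ univ.filter (fun j : Fin n => u j < c j), φ j
      = g (Function.update u j0 0) := by
    intro u hu
    obtain ⟨hle, hsum⟩ := (mem_Lev c q u).mp hu
    have hj0 : u j0 < c j0 := by
      have : u j0 ≤ ∑ j, u j :=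
        Finset.single_le_sum (fun _ _ => Nat.zero_le _) (Finset.mem_univ j0)
      omega
    rw [hg, Finset.sum_filter]
    have hpt : ∀ j, (if u j < c j then φ j else 0)
        = θ j * (if Function.update u j0 0 j < Function.update c j0 0 j
            then ((Function.update c j0 0 j : ℕ) : ℝ) + 1 else 0)
          + (if j = j0 then φ j0 else 0) := by
      intro j
      by_cases hj : j = j0
      · rw [hj, if_pos hj0, if_pos rfl, hθ0, zero_mul, zero_add]
      · rw [if_neg hj, add_zero, Function.update_of_ne hj, Function.update_of_ne hj]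
        by_cases hlt : u j < c j
        · rw [if_pos hlt, if_pos hlt]
          exact hθ j hj
        · rw [if_neg hlt, if_neg hlt, mul_zero]
    rw [Finset.sum_congr rfl (fun j _ => hpt j), Finset.sum_add_distrib, Finset.sum_ite_eq',
      if_pos (Finset.mem_univ _)]
    ring
  rw [Finset.sum_congr rfl hA, sum_Lev_box c q j0 h1 h2 g]
  rw [Finset.sum_congr rfl (fun v _ => hg v), Finset.sum_add_distrib, Finset.sum_const,
    nsmul_eq_mul, Finset.sum_comm, mul_add, Finset.mul_sum]
  congr 1
  apply Finset.sum_congr rfl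
  intro j _
  rw [← Finset.mul_sum, sum_free]
  by_cases hj : j = j0
  · rw [hj, hθ0]
    ring
  · rw [Function.update_of_ne hj]
    ring

/-- the certificate, for a given `θ` -/
theorem boxCert_of_theta {n : ℕ} (c : Fin n → ℕ) (q : ℕ) (j0 : Fin n) (h1 : q + 1 ≤ c j0)
    (h2 : ∑ l, c l ≤ q + c j0) (φ θ : Fin n → ℝ) (hθ0 : θ j0 = 0)
    (hθ : ∀ j, j ≠ j0 → φ j = θ j * ((c j : ℝ) + 1))
    (hK : φ j0 + ∑ j, θ j * (c j : ℝ) = 0) : BoxCert c q φ 0 0 := by
  classical
  obtain ⟨X, hX⟩ : ∃ X : (Fin n → ℕ) → ℝ,
      ∀ u, X u = ∑ j, θ j * ((c j : ℝ) - (u j : ℝ)) := ⟨_, fun _ => rfl⟩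
  have hc := Finset.add_sum_erase univ c (Finset.mem_univ j0)
  have hj0 : ∀ u ∈ Lev c q, u j0 < c j0 := by
    intro u hu
    obtain ⟨hle, hsum⟩ := (mem_Lev c q u).mp hu
    have : u j0 ≤ ∑ j, u j :=
      Finset.single_le_sum (fun _ _ => Nat.zero_le _) (Finset.mem_univ j0)
    omega
  refine ⟨fun u j => if j = j0 then - X u else θ j * ((c j : ℝ) - (u j : ℝ)),
    fun u j => if j = j0 then φ j0 + X u else θ j * ((u j : ℝ) + 1), ?_, ?_, ?_, ?_⟩
  · intro u _ j _
    show (if j = j0 then - X u else θ j * ((c j : ℝ) - (u j : ℝ)))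
      + (if j = j0 then φ j0 + X u else θ j * ((u j : ℝ) + 1)) = φ j
    by_cases hj : j = j0
    · rw [if_pos hj, if_pos hj, hj]
      ring
    · rw [if_neg hj, if_neg hj, hθ j hj]
      ring
  · intro u hu
    obtain ⟨hle, hsum⟩ := (mem_Lev c q u).mp hu
    have hu0 := hj0 u hu
    show ∑ j ∈ univ.filter (fun j => u j < c j),
      (if j = j0 then - X u else θ j * ((c j : ℝ) - (u j : ℝ))) = 0
    rw [Finset.sum_filter]
    have hpt : ∀ j, (if u j < c j then
          (if j = j0 then - X u else θ j * ((c j : ℝ) - (u j : ℝ))) else 0)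
        = θ j * ((c j : ℝ) - (u j : ℝ)) + (if j = j0 then - X u else 0) := by
      intro j
      by_cases hj : j = j0
      · rw [hj, if_pos hu0, if_pos rfl, if_pos rfl, hθ0]
        ring
      · rw [if_neg hj, if_neg hj, add_zero]
        by_cases hlt : u j < c j
        · rw [if_pos hlt]
        · rw [if_neg hlt]
          have heq : u j = c j := by
            have := hle j
            omega
          rw [heq]
          ring
    rw [Finset.sum_congr rfl (fun j _ => hpt j), Finset.sum_add_distrib, Finset.sum_ite_eq',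
      if_pos (Finset.mem_univ _), ← hX]
    ring
  · intro y hy
    obtain ⟨hle, hsum⟩ := (mem_Lev c (q + 1) y).mp hy
    have hye := Finset.add_sum_erase univ y (Finset.mem_univ j0)
    have hle' : ∑ j ∈ univ.erase j0, y j ≤ ∑ j ∈ univ.erase j0, c j :=
      Finset.sum_le_sum (fun j _ => hle j)
    have hy0 : 1 ≤ y j0 := by omega
    show ∑ j ∈ univ.filter (fun j => 1 ≤ y j),
      (if j = j0 then φ j0 + X (Function.update y j (y j - 1))
        else θ j * (((Function.update y j (y j - 1)) j : ℝ) + 1)) = 0
    rw [Finset.sum_filter]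
    have hXy : X (Function.update y j0 (y j0 - 1)) = ∑ l, θ l * ((c l : ℝ) - (y l : ℝ)) := by
      rw [hX]
      apply Finset.sum_congr rfl
      intro l _
      by_cases hl : l = j0
      · rw [hl, hθ0, zero_mul, zero_mul]
      · rw [Function.update_of_ne hl]
    have hpt : ∀ j, (if 1 ≤ y j then
          (if j = j0 then φ j0 + X (Function.update y j (y j - 1))
            else θ j * (((Function.update y j (y j - 1)) j : ℝ) + 1)) else 0)
        = θ j * (y j : ℝ)
          + (if j = j0 then φ j0 + ∑ l, θ l * ((c l : ℝ) - (y l : ℝ)) else 0) := by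
      intro j
      by_cases hj : j = j0
      · rw [hj, if_pos hy0, if_pos rfl, if_pos rfl, hXy, hθ0]
        ring
      · rw [if_neg hj, if_neg hj, add_zero]
        by_cases hlt : 1 ≤ y j
        · rw [if_pos hlt, Function.update_self, Nat.cast_sub hlt, Nat.cast_one]
          ring
        · rw [if_neg hlt]
          have heq : y j = 0 := by omega
          rw [heq]
          simp
    rw [Finset.sum_congr rfl (fun j _ => hpt j), Finset.sum_add_distrib, Finset.sum_ite_eq',
      if_pos (Finset.mem_univ _)]
    have hcomb : ∑ j, θ j * (y j : ℝ) + ∑ l, θ l * ((c l : ℝ) - (y l : ℝ))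
        = ∑ j, θ j * (c j : ℝ) := by
      rw [← Finset.sum_add_distrib]
      apply Finset.sum_congr rfl
      intro j _
      ring
    linarith
  · show 0 ≤ ∑ u ∈ Lev c q, ∑ j ∈ univ.filter (fun j => u j < c j),
      (if j = j0 then - X u else θ j * ((c j : ℝ) - (u j : ℝ)))
        * (if j = j0 then φ j0 + X u else θ j * ((u j : ℝ) + 1))
    obtain ⟨D, hD⟩ : ∃ D : (Fin n → ℕ) → ℝ, ∀ v, D v
        = ∑ j, θ j * (((Function.update c j0 0 j : ℕ) : ℝ) - 2 * (v j : ℝ)) :=
      ⟨_, fun _ => rfl⟩
    obtain ⟨A, hA⟩ : ∃ A : (Fin n → ℕ) → ℝ, ∀ v, A v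
        = ∑ j, θ j ^ 2 * (((v j : ℝ) + 1)
            * (((Function.update c j0 0 j : ℕ) : ℝ) - (v j : ℝ))) := ⟨_, fun _ => rfl⟩
    obtain ⟨g, hg⟩ : ∃ g : (Fin n → ℕ) → ℝ,
        ∀ v, g v = φ j0 ^ 2 / 4 - D v ^ 2 / 4 + A v := ⟨_, fun _ => rfl⟩
    have hDshift : ∀ (v : Fin n → ℕ) (j : Fin n),
        D v - D (Function.update v j (v j + 1)) = 2 * θ j := by
      intro v j
      rw [hD, hD, ← Finset.sum_sub_distrib]
      have hpt : ∀ l, θ l * (((Function.update c j0 0 l : ℕ) : ℝ) - 2 * (v l : ℝ))
          - θ l * (((Function.update c j0 0 l : ℕ) : ℝ)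
            - 2 * ((Function.update v j (v j + 1) l : ℕ) : ℝ))
          = if l = j then 2 * θ j else 0 := by
        intro l
        by_cases hl : l = j
        · rw [if_pos hl, hl, Function.update_self]
          push_cast
          ring
        · rw [if_neg hl, Function.update_of_ne hl, sub_self]
      rw [Finset.sum_congr rfl (fun l _ => hpt l), Finset.sum_ite_eq',
        if_pos (Finset.mem_univ _)]
    have hIBP : ∑ v ∈ Box (Function.update c j0 0), D v ^ 2
        = 2 * ∑ v ∈ Box (Function.update c j0 0), A v := by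
      have e1 : ∑ v ∈ Box (Function.update c j0 0), D v ^ 2
          = ∑ j, θ j * ∑ v ∈ Box (Function.update c j0 0),
              (((Function.update c j0 0 j : ℕ) : ℝ) - 2 * (v j : ℝ)) * D v := by
        have e0 : ∀ v, D v ^ 2 = ∑ j, θ j
            * ((((Function.update c j0 0 j : ℕ) : ℝ) - 2 * (v j : ℝ)) * D v) := by
          intro v
          have hsq : D v ^ 2
              = (∑ j, θ j * (((Function.update c j0 0 j : ℕ) : ℝ) - 2 * (v j : ℝ)))
                * D v := by
            rw [← hD v]
            ring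
          rw [hsq, Finset.sum_mul]
          apply Finset.sum_congr rfl
          intro j _
          ring
        rw [Finset.sum_congr rfl (fun v _ => e0 v), Finset.sum_comm]
        apply Finset.sum_congr rfl
        intro j _
        rw [Finset.mul_sum]
      rw [e1]
      have e2 : ∀ j, θ j * ∑ v ∈ Box (Function.update c j0 0),
              (((Function.update c j0 0 j : ℕ) : ℝ) - 2 * (v j : ℝ)) * D v
          = ∑ v ∈ Box (Function.update c j0 0), 2 * (θ j ^ 2 * (((v j : ℝ) + 1)
              * (((Function.update c j0 0 j : ℕ) : ℝ) - (v j : ℝ)))) := by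
        intro j
        rw [ibp (Function.update c j0 0) j D, Finset.mul_sum]
        apply Finset.sum_congr rfl
        intro v _
        rw [hDshift v j]
        ring
      rw [Finset.sum_congr rfl (fun j _ => e2 j), Finset.sum_comm, Finset.mul_sum]
      apply Finset.sum_congr rfl
      intro v _
      rw [hA, Finset.mul_sum]
    have hAnn : ∀ v ∈ Box (Function.update c j0 0), 0 ≤ A v := by
      intro v hv
      rw [hA]
      apply Finset.sum_nonneg
      intro j _
      have hle := (mem_Box _ v).mp hv j
      have h1' : (v j : ℝ) ≤ ((Function.update c j0 0 j : ℕ) : ℝ) := by exact_mod_cast hle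
      have h2' : (0 : ℝ) ≤ (v j : ℝ) := Nat.cast_nonneg _
      have h3' : 0 ≤ θ j ^ 2 := sq_nonneg _
      have h4' : 0 ≤ ((v j : ℝ) + 1) * (((Function.update c j0 0 j : ℕ) : ℝ) - (v j : ℝ)) :=
        mul_nonneg (by linarith) (by linarith)
      exact mul_nonneg h3' h4'
    have hE : ∀ u ∈ Lev c q, ∑ j ∈ univ.filter (fun j => u j < c j),
        (if j = j0 then - X u else θ j * ((c j : ℝ) - (u j : ℝ)))
          * (if j = j0 then φ j0 + X u else θ j * ((u j : ℝ) + 1))
        = g (Function.update u j0 0) := by
      intro u hu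
      obtain ⟨hle, hsum⟩ := (mem_Lev c q u).mp hu
      have hu0 := hj0 u hu
      have hDv : D (Function.update u j0 0) = 2 * X u + φ j0 := by
        rw [hD, hX]
        have hpt : ∀ j, θ j * (((Function.update c j0 0 j : ℕ) : ℝ)
              - 2 * ((Function.update u j0 0 j : ℕ) : ℝ))
            = 2 * (θ j * ((c j : ℝ) - (u j : ℝ))) - θ j * (c j : ℝ) := by
          intro j
          by_cases hj : j = j0
          · rw [hj, hθ0]
            ring
          · rw [Function.update_of_ne hj, Function.update_of_ne hj]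
            ring
        rw [Finset.sum_congr rfl (fun j _ => hpt j), Finset.sum_sub_distrib, ← Finset.mul_sum]
        linarith
      have hAv : A (Function.update u j0 0)
          = ∑ j, θ j ^ 2 * (((u j : ℝ) + 1) * ((c j : ℝ) - (u j : ℝ))) := by
        rw [hA]
        apply Finset.sum_congr rfl
        intro j _
        by_cases hj : j = j0
        · rw [hj, hθ0]
          ring
        · rw [Function.update_of_ne hj, Function.update_of_ne hj]
      have hsum' : ∑ j ∈ univ.filter (fun j => u j < c j),
          (if j = j0 then - X u else θ j * ((c j : ℝ) - (u j : ℝ)))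
            * (if j = j0 then φ j0 + X u else θ j * ((u j : ℝ) + 1))
          = ∑ j, θ j ^ 2 * (((u j : ℝ) + 1) * ((c j : ℝ) - (u j : ℝ)))
            + - X u * (φ j0 + X u) := by
        rw [Finset.sum_filter]
        have hpt : ∀ j, (if u j < c j then
              (if j = j0 then - X u else θ j * ((c j : ℝ) - (u j : ℝ)))
                * (if j = j0 then φ j0 + X u else θ j * ((u j : ℝ) + 1)) else 0)
            = θ j ^ 2 * (((u j : ℝ) + 1) * ((c j : ℝ) - (u j : ℝ)))
              + (if j = j0 then - X u * (φ j0 + X u) else 0) := by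
          intro j
          by_cases hj : j = j0
          · rw [hj, if_pos hu0, if_pos rfl, if_pos rfl, if_pos rfl, hθ0]
            ring
          · rw [if_neg hj, if_neg hj, if_neg hj, add_zero]
            by_cases hlt : u j < c j
            · rw [if_pos hlt]
              ring
            · rw [if_neg hlt]
              have heq : u j = c j := by
                have := hle j
                omega
              rw [heq]
              ring
        rw [Finset.sum_congr rfl (fun j _ => hpt j), Finset.sum_add_distrib,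
          Finset.sum_ite_eq', if_pos (Finset.mem_univ _)]
      rw [hsum', hg, hDv, hAv]
      ring
    rw [Finset.sum_congr rfl hE, sum_Lev_box c q j0 h1 h2 g]
    have hfin : ∑ v ∈ Box (Function.update c j0 0), g v
        = ((Box (Function.update c j0 0)).card : ℝ) * (φ j0 ^ 2 / 4)
          + (1 / 2) * ∑ v ∈ Box (Function.update c j0 0), A v := by
      rw [Finset.sum_congr rfl (fun v _ => hg v), Finset.sum_add_distrib,
        Finset.sum_sub_distrib, Finset.sum_const, nsmul_eq_mul, ← Finset.sum_div, hIBP]
      ring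
    rw [hfin]
    have hpos : 0 ≤ ∑ v ∈ Box (Function.update c j0 0), A v := Finset.sum_nonneg hAnn
    have hcard : (0 : ℝ) ≤ ((Box (Function.update c j0 0)).card : ℝ) := Nat.cast_nonneg _
    have hsq : 0 ≤ φ j0 ^ 2 / 4 := by positivity
    have hprod := mul_nonneg hcard hsq
    linarith

end Reservoir

/-- **Reservoir column**: a framed certificate with zero frames on the level `q` of the box,
for every colour function with zero sum over the edges, when the column `j0` is never full on
the level `q` (`q + 1 ≤ c j0`) and never empty on the level `q + 1`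
(`∑ l, c l ≤ q + c j0`). -/
theorem boxCert_reservoir {n : ℕ} (c : Fin n → ℕ) (q : ℕ) (j0 : Fin n) (h1 : q + 1 ≤ c j0)
    (h2 : ∑ l, c l ≤ q + c j0) (φ : Fin n → ℝ)
    (hφ : ∑ u ∈ Lev c q, ∑ j ∈ univ.filter (fun j : Fin n => u j < c j), φ j = 0) :
    BoxCert c q φ 0 0 := by
  classical
  obtain ⟨θ, hθdef⟩ : ∃ θ : Fin n → ℝ,
      ∀ j, θ j = if j = j0 then (0 : ℝ) else φ j / ((c j : ℝ) + 1) := ⟨_, fun _ => rfl⟩
  have hθ0 : θ j0 = 0 := by
    rw [hθdef, if_pos rfl]
  have hθ : ∀ j, j ≠ j0 → φ j = θ j * ((c j : ℝ) + 1) := by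
    intro j hj
    rw [hθdef, if_neg hj]
    have hne : ((c j : ℝ) + 1) ≠ 0 := by positivity
    field_simp
  have hcen := Reservoir.centre_eq c q j0 h1 h2 φ θ hθ0 hθ
  rw [hφ] at hcen
  have hcard : ((Reservoir.Box (Function.update c j0 0)).card : ℝ) ≠ 0 := by
    have hne : (Reservoir.Box (Function.update c j0 0)).Nonempty :=
      ⟨fun _ => 0, (Reservoir.mem_Box _ _).mpr (fun j => Nat.zero_le _)⟩
    exact_mod_cast (Finset.card_pos.mpr hne).ne'
  have hK := (mul_eq_zero.mp hcen.symm).resolve_left hcard
  exact Reservoir.boxCert_of_theta c q j0 h1 h2 φ θ hθ0 hθ hK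

/-- **Three rows, last row sum one, one big column**: the three-row inequality for
`r = (r 0, r 1, 1)` and every `c` with a column `j0` such that
`max (r 0) (r 1) + 1 ≤ c j0`. -/
theorem threeRow_of_reservoir {n : ℕ} (r : Fin 3 → ℕ) (c : Fin n → ℕ) (hr : r 2 = 1)
    (j0 : Fin n) (h0 : r 0 + 1 ≤ c j0) (h1 : r 1 + 1 ≤ c j0) (f : CT 3 n r c → ℝ) :
    ∑ q ∈ (univ : Finset (Fin 3)).powersetCard 2, ip f (R q f)
      ≤ 2 * ip f f + ip f (R univ f) := by
  classical
  by_cases hne : Nonempty (CT 3 n r c)
  swap
  · have hemp : IsEmpty (CT 3 n r c) := not_nonempty_iff.mp hne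
    have hz : ∀ g1 g2 : CT 3 n r c → ℝ, ip g1 g2 = 0 := by
      intro g1 g2
      unfold ip
      rw [Finset.univ_eq_empty, Finset.sum_empty]
    rw [hz, hz, Finset.sum_eq_zero (fun q _ => hz _ _)]
    norm_num
  obtain ⟨x0⟩ := hne
  have hsum := BoxDual.sum_c x0
  exact threeRow_of_boxCert r c hr
    (fun φ hφ => boxCert_reservoir c (r 0) j0 h0 (by omega) φ hφ) f

end Vale.Agent.Lib.P328.RP
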