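import Mathlib
import Vale.Agent.Lib.P328.RP.FamilyHub
import Vale.Agent.Lib.P328.helper14.Reservoir

/-!
P328: margins with a hub column and any number of big rows.

Let `j0` be a column and `M = ∑ j ≠ j0, c j` the sum of the other column sums.  Family: every
row sum is at most one or at least `M`.  Every three-row system inside such tables

* has a row with sum zero, or two rows with sum at most one (`threeRow_of_zero_row`,
  `threeRow_rows_of_two_small`), or
* consists of two rows with sum at least `M` and a row with sum one: then its column `j0`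
  exceeds both large row sums (`threeRow_of_reservoir`), or
* consists of three rows with sum at least `M`, which is at least the sum of its own column
  sums outside `j0`: hypothesis `BigRows n` below.

* `BigRows n` : the three-row inequality for the `3 × n` tables all of whose row sums are at
  least the sum of the column sums outside one column.
* `threeRow_at_hub_big` : the three-row inequality for every three-row system inside the
  tables of the family, given `BigRows n`.
* `mixing22_hub_big_of`, `mixing_hub_big_of` : the mixing bounds, given `BigRows n`.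
-/

namespace Vale.Agent.Lib.P328.RP

open Finset
open Vale.Agent.Lib.P335.Bip

/-- the three-row inequality for the `3 × n` tables all of whose row sums are at least the sum
of the column sums outside one column `j0` -/
def BigRows (n : ℕ) : Prop :=
  ∀ (r' : Fin 3 → ℕ) (c' : Fin n → ℕ) (j0 : Fin n),
    (∀ k, ∑ j ∈ univ.erase j0, c' j ≤ r' k) → ∀ g : CT 3 n r' c' → ℝ,
      ∑ q ∈ (univ : Finset (Fin 3)).powersetCard 2, ip g (R q g)
        ≤ 2 * ip g g + ip g (R univ g)

open FamilyHub in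
/-- **Three-row systems inside tables with a hub column in which every row sum is at most one
or at least the sum of the other columns.** -/
theorem threeRow_at_hub_big {m n : ℕ} (hBig : BigRows n) (r : Fin m → ℕ) (c : Fin n → ℕ)
    (j0 : Fin n) (hrow : ∀ i, r i ≤ 1 ∨ ∑ j ∈ univ.erase j0, c j ≤ r i)
    (φ : Fin 3 ↪ Fin m) (x0 : CT m n r c)
    (g : CT 3 n (r ∘ φ) (fun j => ∑ a, x0.1 (φ a) j) → ℝ) :
    ∑ q ∈ (univ : Finset (Fin 3)).powersetCard 2, ip g (R q g)
      ≤ 2 * ip g g + ip g (R univ g) := by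
  classical
  have hrest : ∑ j ∈ univ.erase j0, ∑ a, x0.1 (φ a) j ≤ ∑ j ∈ univ.erase j0, c j :=
    Finset.sum_le_sum (fun j _ => sub_col_le φ x0 j)
  by_cases hall : ∀ k : Fin 3, ¬ ((r ∘ φ) k ≤ 1)
  · refine hBig (r ∘ φ) _ j0 (fun k => ?_) g
    rcases hrow (φ k) with h | h
    · exact absurd h (hall k)
    · exact hrest.trans h
  push Not at hall
  obtain ⟨k, hsk⟩ := hall
  rcases Nat.lt_or_ge ((r ∘ φ) k) 1 with hz | hge
  · exact threeRow_of_zero_row (r ∘ φ) _ k (by omega) g
  have hk : (r ∘ φ) k = 1 := le_antisymm hsk hge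
  by_cases hsmall : ∃ i : Fin 3, i ≠ k ∧ (r ∘ φ) i ≤ 1
  · obtain ⟨i, hik, hi⟩ := hsmall
    exact threeRow_of_rows (r ∘ φ) _
      (fun g' hg' => threeRow_rows_of_two_small (r ∘ φ) _ i k hik hi hsk g' hg') g
  push Not at hsmall
  have hfat : ∀ i : Fin 3, i ≠ k → ∑ j ∈ univ.erase j0, c j ≤ (r ∘ φ) i := by
    intro i hik
    have h2 := hsmall i hik
    rcases hrow (φ i) with h | h
    · rw [Function.comp_apply] at h2
      omega
    · exact h
  obtain ⟨ha, hb, hab⟩ := swap_vals k
  have htot : ∑ j, ∑ a, x0.1 (φ a) j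
      = (r ∘ φ) k + ((r ∘ φ) (Equiv.swap 2 k 0) + (r ∘ φ) (Equiv.swap 2 k 1)) := by
    rw [sub_col_sum φ x0, Family.univ_eq k (Equiv.swap 2 k 0) (Equiv.swap 2 k 1) ha.symm hb.symm
      hab, Finset.sum_insert (by simp [ha.symm, hb.symm]), Finset.sum_insert (by simp [hab]),
      Finset.sum_singleton]
  have hsplit : ∑ a, x0.1 (φ a) j0 + ∑ j ∈ univ.erase j0, ∑ a, x0.1 (φ a) j
      = ∑ j, ∑ a, x0.1 (φ a) j :=
    Finset.add_sum_erase univ (fun j => ∑ a, x0.1 (φ a) j) (Finset.mem_univ j0)
  have hfa := hfat _ ha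
  have hfb := hfat _ hb
  refine threeRow_of_perm (r ∘ φ) _ (Equiv.swap 2 k)
    (threeRow_of_reservoir ((r ∘ φ) ∘ Equiv.swap 2 k) _ ?_ j0 ?_ ?_) g
  · rw [Function.comp_apply, Equiv.swap_apply_left]
    exact hk
  · show (r ∘ φ) (Equiv.swap 2 k 0) + 1 ≤ ∑ a, x0.1 (φ a) j0
    omega
  · show (r ∘ φ) (Equiv.swap 2 k 1) + 1 ≤ ∑ a, x0.1 (φ a) j0
    omega

/-- Hub column, every row sum at most one or at least the sum of the other columns: the heat
bath on two-by-two blocks, given the three-row inequality for three big rows. -/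
theorem mixing22_hub_big_of {m n : ℕ} (hm : 2 ≤ m) (hn : 2 ≤ n) (hBig : BigRows n)
    (r : Fin m → ℕ) (c : Fin n → ℕ) (j0 : Fin n)
    (hrow : ∀ i, r i ≤ 1 ∨ ∑ j ∈ univ.erase j0, c j ≤ r i)
    (x : CT m n r c) (ε : ℝ) (hε : 0 < ε) (hε1 : ε ≤ 1) (t : ℕ)
    (ht : (m : ℝ) ^ 2 * (n : ℝ) ^ 2 *
      (m * n * Real.log (((∑ i, r i : ℕ) : ℝ) + 1) + Real.log (1 / ε)) ≤ t) :
    (1 / 2) * ∑ y, |(heatBath22 m n r c ^ t) x y - 1 / (Fintype.card (CT m n r c) : ℝ)| ≤ ε :=
  mixing22_of_threeRow_at hm hn r c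
    (fun φ x0 g => threeRow_at_hub_big hBig r c j0 hrow φ x0 g) x ε hε hε1 t ht

/-- Hub column, every row sum at most one or at least the sum of the other columns: the
row-pair heat bath, given the three-row inequality for three big rows. -/
theorem mixing_hub_big_of {m n : ℕ} (hm : 2 ≤ m) (hBig : BigRows n)
    (r : Fin m → ℕ) (c : Fin n → ℕ) (j0 : Fin n)
    (hrow : ∀ i, r i ≤ 1 ∨ ∑ j ∈ univ.erase j0, c j ≤ r i)
    (x : CT m n r c) (ε : ℝ) (hε : 0 < ε) (hε1 : ε ≤ 1) (t : ℕ)
    (ht : (m : ℝ) ^ 2 * (m * n * Real.log (((∑ i, r i : ℕ) : ℝ) + 1) + Real.log (1 / ε)) ≤ t) :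
    (1 / 2) * ∑ y, |(heatBath m n r c ^ t) x y - 1 / (Fintype.card (CT m n r c) : ℝ)| ≤ ε :=
  mixing_of_threeRow_at hm r c
    (fun φ x0 g => threeRow_at_hub_big hBig r c j0 hrow φ x0 g) x ε hε hε1 t ht

end Vale.Agent.Lib.P328.RP
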