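import Mathlib
import Vale.Agent.Lib.P328.RP.Transpose

/-!
P328: the heat bath on two-by-two blocks commutes with transposition of the tables.

* `heatBath22_tr` : the transition matrices correspond under `tr`.
* `heatBath22_pow_tr` : so do their powers.
* `tv22_tr` : the total variation distance to uniform after `t` steps from `x` equals the one
  of the transposed chain from `tr x`.
* `sum_rows_eq_sum_cols` : the two sums of margins agree when a table exists.
-/

namespace Vale.Agent.Lib.P328.RP

open Finset

section

variable {m n : ℕ} {r : Fin m → ℕ} {c : Fin n → ℕ}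

theorem mem_bfibre_tr (p : Finset (Fin m)) (q : Finset (Fin n)) (x y : CT m n r c) :
    tr y ∈ bfibre q p (tr x) ↔ y ∈ bfibre p q x := by
  rw [mem_bfibre, mem_bfibre]
  constructor
  · intro h i j hij
    exact h j i (fun hh => hij ⟨hh.2, hh.1⟩)
  · intro h j i hji
    exact h i j (fun hh => hji ⟨hh.2, hh.1⟩)

theorem card_bfibre_tr (p : Finset (Fin m)) (q : Finset (Fin n)) (x : CT m n r c) :
    (bfibre q p (tr x)).card = (bfibre p q x).card := by
  symm
  apply Finset.card_equiv tr
  intro y
  exact (mem_bfibre_tr p q x y).symm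

/-- the transition matrices correspond under transposition -/
theorem heatBath22_tr (x y : CT m n r c) :
    heatBath22 n m c r (tr x) (tr y) = heatBath22 m n r c x y := by
  unfold heatBath22
  rw [Finset.sum_comm, mul_comm ((n.choose 2 : ℝ)) ((m.choose 2 : ℝ))]
  congr 1
  apply Finset.sum_congr rfl
  intro p _
  apply Finset.sum_congr rfl
  intro q _
  by_cases hy : y ∈ bfibre p q x
  · rw [if_pos hy, if_pos ((mem_bfibre_tr p q x y).mpr hy), card_bfibre_tr]
  · rw [if_neg hy, if_neg (fun h => hy ((mem_bfibre_tr p q x y).mp h))]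

/-- the powers of the transition matrices correspond under transposition -/
theorem heatBath22_pow_tr (t : ℕ) (x y : CT m n r c) :
    (heatBath22 n m c r ^ t) (tr x) (tr y) = (heatBath22 m n r c ^ t) x y := by
  classical
  induction t generalizing y with
  | zero =>
    rw [pow_zero, pow_zero, Matrix.one_apply, Matrix.one_apply]
    by_cases hxy : x = y
    · rw [if_pos hxy, if_pos (congrArg tr hxy)]
    · rw [if_neg hxy, if_neg (fun h => hxy (tr.injective h))]
  | succ t ih =>
    rw [pow_succ, pow_succ, Matrix.mul_apply, Matrix.mul_apply,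
      ← Equiv.sum_comp (tr : CT m n r c ≃ CT n m c r)]
    apply Finset.sum_congr rfl
    intro k _
    rw [ih k, heatBath22_tr k y]

/-- the total variation distance to the uniform distribution after `t` steps corresponds under
transposition -/
theorem tv22_tr (t : ℕ) (x : CT m n r c) :
    ∑ y, |(heatBath22 m n r c ^ t) x y - 1 / (Fintype.card (CT m n r c) : ℝ)|
      = ∑ y', |(heatBath22 n m c r ^ t) (tr x) y' - 1 / (Fintype.card (CT n m c r) : ℝ)| := by
  rw [← Equiv.sum_comp (tr : CT m n r c ≃ CT n m c r),
    Fintype.card_congr (tr : CT m n r c ≃ CT n m c r)]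
  apply Finset.sum_congr rfl
  intro y _
  rw [heatBath22_pow_tr t x y]

/-- the two sums of margins agree when a table exists -/
theorem sum_rows_eq_sum_cols (x : CT m n r c) : ∑ i, r i = ∑ j, c j := by
  have h1 : ∑ i, r i = ∑ i, ∑ j, x.1 i j := Finset.sum_congr rfl (fun i _ => (x.2.1 i).symm)
  have h2 : ∑ j, c j = ∑ j, ∑ i, x.1 i j := Finset.sum_congr rfl (fun j _ => (x.2.2 j).symm)
  rw [h1, h2, Finset.sum_comm]

/-- **Transposition of a mixing bound**: a bound for the transposed chain started from `tr x`
is a bound for the chain started from `x`. -/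
theorem mixing22_of_tr (x : CT m n r c) (ε : ℝ) (t : ℕ)
    (h : (1 / 2) * ∑ y', |(heatBath22 n m c r ^ t) (tr x) y'
      - 1 / (Fintype.card (CT n m c r) : ℝ)| ≤ ε) :
    (1 / 2) * ∑ y, |(heatBath22 m n r c ^ t) x y - 1 / (Fintype.card (CT m n r c) : ℝ)| ≤ ε := by
  rw [tv22_tr t x]
  exact h

end

end Vale.Agent.Lib.P328.RP
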