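import Mathlib
import Vale.Agent.Lib.P328.RP.Transpose
import Vale.Agent.Lib.P328.RP.RestrictedCol
import Vale.Agent.Lib.P328.RP.Mixing22

/-!
P328: the heat bath on two-by-two blocks is symmetric under transposition of the tables, so
every family of margins for which its gap is known through the rows is also known through the
columns.

* `gap22_of_tr` : the gap inequality for the transposed margins gives the gap inequality.
* `mixing22_of_threeRow_at_tr` : the mixing bound for the tables with margins `r`, `c`, given
  the three-row inequality for the three-COLUMN systems that occur inside these tables (stated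
  for the transposed tables `CT n m c r`).
-/

namespace Vale.Agent.Lib.P328.RP

open Finset
open Vale.Agent.Lib.P335.Bip

/-- **Transposition of the gap of the heat bath on two-by-two blocks.** -/
theorem gap22_of_tr {m n : ℕ} {r : Fin m → ℕ} {c : Fin n → ℕ} (κ : ℝ)
    (h : ∀ f' : CT n m c r → ℝ, κ * (ip f' f' - ip f' (R univ f'))
      ≤ ∑ p ∈ (univ : Finset (Fin n)).powersetCard 2,
          ∑ q ∈ (univ : Finset (Fin m)).powersetCard 2, (ip f' f' - ip f' (E p q f')))
    (f : CT m n r c → ℝ) :
    κ * (ip f f - ip f (R univ f))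
      ≤ ∑ p ∈ (univ : Finset (Fin m)).powersetCard 2,
          ∑ q ∈ (univ : Finset (Fin n)).powersetCard 2, (ip f f - ip f (E p q f)) := by
  obtain ⟨f', hf'⟩ : ∃ f' : CT n m c r → ℝ, f = fun x : CT m n r c => f' (tr x) :=
    ⟨fun y => f (tr.symm y), by
      funext x
      show f x = f (tr.symm (tr x))
      rw [Equiv.symm_apply_apply]⟩
  have hE : ∀ (p : Finset (Fin m)) (q : Finset (Fin n)),
      ip f (E p q f) = ip f' (E q p f') := by
    intro p q
    have h1 : E p q f = fun x : CT m n r c => E q p f' (tr x) := by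
      funext x
      rw [hf']
      exact E_tr p q f' x
    rw [h1]
    conv_lhs => rw [hf']
    exact ip_tr f' (E q p f')
  have hff : ip f f = ip f' f' := by
    rw [hf']
    exact ip_tr f' f'
  have hR : ip f (R univ f) = ip f' (R univ f') := by
    rw [← E_univ_right, ← E_univ_right]
    exact hE univ univ
  have key := h f'
  rw [hff, hR, Finset.sum_comm]
  refine key.trans (le_of_eq ?_)
  apply Finset.sum_congr rfl
  intro q _
  apply Finset.sum_congr rfl
  intro p _
  rw [hE p q]

/-- The heat bath on two-by-two blocks of the tables with margins `r`, `c` mixes in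
`m ^ 2 n ^ 2 (m n log (N + 1) + log (1 / ε))` steps, given the three-row inequality for the
three-row systems that occur inside the transposed tables (the three-column systems of the
tables). -/
theorem mixing22_of_threeRow_at_tr {m n : ℕ} (hm : 2 ≤ m) (hn : 2 ≤ n) (r : Fin m → ℕ)
    (c : Fin n → ℕ)
    (h3 : ∀ (φ : Fin 3 ↪ Fin n) (x0 : CT n m c r)
      (g : CT 3 m (c ∘ φ) (fun i => ∑ a, x0.1 (φ a) i) → ℝ),
      ∑ q ∈ (univ : Finset (Fin 3)).powersetCard 2, ip g (R q g) ≤ 2 * ip g g + ip g (R univ g))
    (x : CT m n r c) (ε : ℝ) (hε : 0 < ε) (hε1 : ε ≤ 1) (t : ℕ)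
    (ht : (m : ℝ) ^ 2 * (n : ℝ) ^ 2 *
      (m * n * Real.log (((∑ i, r i : ℕ) : ℝ) + 1) + Real.log (1 / ε)) ≤ t) :
    (1 / 2) * ∑ y, |(heatBath22 m n r c ^ t) x y - 1 / (Fintype.card (CT m n r c) : ℝ)| ≤ ε := by
  refine mixing22_of_gap hm hn r c 1 one_pos le_rfl
    (gap22_of_tr 1 (gap22_of_threeRow_at c r h3)) x ε hε hε1 t ?_
  rw [div_one]
  exact ht

end Vale.Agent.Lib.P328.RP
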