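import Mathlib
import Vale.Agent.Lib.P328.helper14.FamilyHubBig
import Vale.Agent.Lib.P328.helper14.TransposeMix

/-!
P328: the transposed hub family, and the union of the two.

* `mixing22_hub_row_big_of` : margins with a hub ROW `i0` such that every column sum is at most
  one or at least the sum of the other rows: the heat bath on two-by-two blocks, given
  `BigRows m` (the three-row inequality of `FamilyHubBig` for `3 × m` tables).
* `mixing22_hub_line_big_of` : a hub column with every row sum at most one or at least the sum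
  of the other columns, or a hub row with every column sum at most one or at least the sum of
  the other rows.
-/

namespace Vale.Agent.Lib.P328.RP

open Finset
open Vale.Agent.Lib.P335.Bip

/-- Hub row, every column sum at most one or at least the sum of the other rows: the heat bath
on two-by-two blocks, given the three-row inequality for three big rows of `3 × m` tables. -/
theorem mixing22_hub_row_big_of {m n : ℕ} (hm : 2 ≤ m) (hn : 2 ≤ n) (hBig : BigRows m)
    (r : Fin m → ℕ) (c : Fin n → ℕ) (i0 : Fin m)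
    (hcol : ∀ j, c j ≤ 1 ∨ ∑ i ∈ univ.erase i0, r i ≤ c j)
    (x : CT m n r c) (ε : ℝ) (hε : 0 < ε) (hε1 : ε ≤ 1) (t : ℕ)
    (ht : (m : ℝ) ^ 2 * (n : ℝ) ^ 2 *
      (m * n * Real.log (((∑ i, r i : ℕ) : ℝ) + 1) + Real.log (1 / ε)) ≤ t) :
    (1 / 2) * ∑ y, |(heatBath22 m n r c ^ t) x y - 1 / (Fintype.card (CT m n r c) : ℝ)| ≤ ε :=
  mixing22_of_threeRow_at_tr hm hn r c
    (fun φ x0 g => threeRow_at_hub_big hBig c r i0 hcol φ x0 g) x ε hε hε1 t ht

/-- Hub column or hub row: the heat bath on two-by-two blocks, given the three-row inequality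
for three big rows of `3 × n` and of `3 × m` tables. -/
theorem mixing22_hub_line_big_of {m n : ℕ} (hm : 2 ≤ m) (hn : 2 ≤ n) (hBigN : BigRows n)
    (hBigM : BigRows m) (r : Fin m → ℕ) (c : Fin n → ℕ)
    (h : (∃ j0 : Fin n, ∀ i, r i ≤ 1 ∨ ∑ j ∈ univ.erase j0, c j ≤ r i) ∨
      (∃ i0 : Fin m, ∀ j, c j ≤ 1 ∨ ∑ i ∈ univ.erase i0, r i ≤ c j))
    (x : CT m n r c) (ε : ℝ) (hε : 0 < ε) (hε1 : ε ≤ 1) (t : ℕ)
    (ht : (m : ℝ) ^ 2 * (n : ℝ) ^ 2 *
      (m * n * Real.log (((∑ i, r i : ℕ) : ℝ) + 1) + Real.log (1 / ε)) ≤ t) :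
    (1 / 2) * ∑ y, |(heatBath22 m n r c ^ t) x y - 1 / (Fintype.card (CT m n r c) : ℝ)|
      ≤ ε := by
  rcases h with ⟨j0, hrow⟩ | ⟨i0, hcol⟩
  · exact mixing22_hub_big_of hm hn hBigN r c j0 hrow x ε hε hε1 t ht
  · exact mixing22_hub_row_big_of hm hn hBigM r c i0 hcol x ε hε hε1 t ht

end Vale.Agent.Lib.P328.RP
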