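import Mathlib
import Vale.Agent.Lib.P335.helper26.Abstract

/-!
P328: two abstract lemmas for the inequality between three conditional expectations on a
finite type with the uniform measure (no tables occur here).

* `threeCexp_of_dual` : the dual form (for functions `g0`, `g1`, `g2` of the three maps with
  zero sums, the square of their sum adds up to at most twice the sum of their squares) implies
  the operator form: the quadratic forms of the three conditional expectations add up to at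
  most twice the square norm plus the quadratic form of the global average.
* `dual_of_swap` : the dual form for a map `B` and two maps `Ja`, `Jb` exchanged by an
  involution that preserves `B`, given that `∑ σ (Ja x) * σ (Jb x) ≤ 0` for every `σ` with
  `∑ σ (Ja x) = 0`.
-/

namespace Vale.Agent.Lib.P328.RP

open Finset
open Vale.Agent.Lib.P335.Bip

namespace FourRowAbs

section avgsec

variable {Ω : Type*} [Fintype Ω]

/-- The global average, as a conditional expectation given a constant map. -/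
noncomputable def avg : (Ω → ℝ) →ₗ[ℝ] (Ω → ℝ) := cexp (fun _ : Ω => ())

theorem avg_apply (f : Ω → ℝ) (x : Ω) : avg f x = (∑ y, f y) / (Fintype.card Ω : ℝ) := by
  unfold avg
  rw [cexp_apply]
  simp

theorem ip_avg (f : Ω → ℝ) : ip f (avg f) = (∑ x, f x) ^ 2 / (Fintype.card Ω : ℝ) := by
  unfold ip
  rw [Finset.sum_congr rfl (fun x _ => by rw [avg_apply]), ← Finset.sum_mul]
  ring

theorem ip_avg_self (f : Ω → ℝ) : ip (avg f) (avg f) = ip f (avg f) :=
  (ip_cexp_self _ f).symm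

theorem sum_avg (f : Ω → ℝ) : ∑ x, avg f x = ∑ x, f x := sum_cexp _ f

variable {K : Type*} [DecidableEq K] (κ : Ω → K)

/-- The centred conditional expectation of `f` given `κ`. -/
noncomputable def Fc (f : Ω → ℝ) : Ω → ℝ := cexp κ f - avg f

theorem Fc_congr (f : Ω → ℝ) {x y : Ω} (h : κ x = κ y) : Fc κ f x = Fc κ f y := by
  unfold Fc
  rw [Pi.sub_apply, Pi.sub_apply, cexp_congr κ h f, avg_apply, avg_apply]

theorem sum_Fc (f : Ω → ℝ) : ∑ x, Fc κ f x = 0 := by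
  unfold Fc
  simp only [Pi.sub_apply]
  rw [Finset.sum_sub_distrib, sum_cexp, sum_avg, sub_self]

theorem ip_cexp_avg (f : Ω → ℝ) : ip (cexp κ f) (avg f) = ip f (avg f) := by
  rw [← cexp_symm]
  congr 1
  exact cexp_tower' κ (fun _ : Ω => ()) (fun _ _ _ => rfl) f

theorem ip_Fc_self (f : Ω → ℝ) :
    ip (Fc κ f) (Fc κ f) = ip f (cexp κ f) - ip f (avg f) := by
  unfold Fc
  rw [ip_sub_left, ip_sub_right, ip_sub_right, ← ip_cexp_self, ip_cexp_avg,
    ip_comm (avg f) (cexp κ f), ip_cexp_avg, ip_avg_self]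
  ring

theorem ip_sub_Fc (f : Ω → ℝ) : ip (f - avg f) (Fc κ f) = ip (Fc κ f) (Fc κ f) := by
  rw [ip_Fc_self]
  unfold Fc
  rw [ip_sub_left, ip_sub_right, ip_sub_right, ip_comm (avg f) (cexp κ f), ip_cexp_avg,
    ip_avg_self]
  ring

theorem exists_factor (f : Ω → ℝ) : ∃ g : K → ℝ, ∀ x, g (κ x) = Fc κ f x := by
  classical
  refine ⟨fun v => if hv : ∃ y, κ y = v then Fc κ f hv.choose else 0, fun x => ?_⟩
  have hex : ∃ y, κ y = κ x := ⟨x, rfl⟩
  simp only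
  rw [dif_pos hex]
  exact Fc_congr κ f hex.choose_spec

theorem le_two_mul_of_sq_le {S V W : ℝ} (hV0 : 0 ≤ V) (hCS : S ^ 2 ≤ V * W)
    (hW : W ≤ 2 * S) : S ≤ 2 * V := by
  by_contra hcon
  push Not at hcon
  have h1 : V * W ≤ V * (2 * S) := mul_le_mul_of_nonneg_left hW hV0
  nlinarith

end avgsec

end FourRowAbs

open FourRowAbs in
/-- **Dual form implies operator form.**  Let `k0`, `k1`, `k2` be three maps on a finite type.
If for all functions `g0`, `g1`, `g2` of the three maps with zero sums the squares of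
`g0 + g1 + g2` add up to at most twice the sum of the squares of the three functions, then the
quadratic forms of the three conditional expectations add up to at most twice the square norm
plus the quadratic form of the global average. -/
theorem threeCexp_of_dual {Ω K0 K1 K2 : Type*} [Fintype Ω] [DecidableEq K0] [DecidableEq K1]
    [DecidableEq K2] (k0 : Ω → K0) (k1 : Ω → K1) (k2 : Ω → K2)
    (hV : ∀ (g0 : K0 → ℝ) (g1 : K1 → ℝ) (g2 : K2 → ℝ),
      ∑ x, g0 (k0 x) = 0 → ∑ x, g1 (k1 x) = 0 → ∑ x, g2 (k2 x) = 0 →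
      ∑ x, (g0 (k0 x) + g1 (k1 x) + g2 (k2 x)) ^ 2
        ≤ 2 * ∑ x, (g0 (k0 x) ^ 2 + g1 (k1 x) ^ 2 + g2 (k2 x) ^ 2))
    (f : Ω → ℝ) :
    ip f (cexp k0 f) + ip f (cexp k1 f) + ip f (cexp k2 f)
      ≤ 2 * ip f f + (∑ x, f x) ^ 2 / (Fintype.card Ω : ℝ) := by
  obtain ⟨g0, hg0⟩ := exists_factor k0 f
  obtain ⟨g1, hg1⟩ := exists_factor k1 f
  obtain ⟨g2, hg2⟩ := exists_factor k2 f
  have hmain := hV g0 g1 g2
    (by rw [Finset.sum_congr rfl (fun x _ => hg0 x)]; exact sum_Fc k0 f)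
    (by rw [Finset.sum_congr rfl (fun x _ => hg1 x)]; exact sum_Fc k1 f)
    (by rw [Finset.sum_congr rfl (fun x _ => hg2 x)]; exact sum_Fc k2 f)
  simp only [hg0, hg1, hg2] at hmain
  have hGG : ip (Fc k0 f + Fc k1 f + Fc k2 f) (Fc k0 f + Fc k1 f + Fc k2 f)
      ≤ 2 * (ip (Fc k0 f) (Fc k0 f) + ip (Fc k1 f) (Fc k1 f) + ip (Fc k2 f) (Fc k2 f)) := by
    rw [ip_eq_sum_sq, ip_eq_sum_sq, ip_eq_sum_sq, ip_eq_sum_sq, ← Finset.sum_add_distrib,
      ← Finset.sum_add_distrib]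
    exact hmain
  have hSG : ip (f - avg f) (Fc k0 f + Fc k1 f + Fc k2 f)
      = ip (Fc k0 f) (Fc k0 f) + ip (Fc k1 f) (Fc k1 f) + ip (Fc k2 f) (Fc k2 f) := by
    rw [ip_add_right, ip_add_right, ip_sub_Fc, ip_sub_Fc, ip_sub_Fc]
  have hVV : ip (f - avg f) (f - avg f) = ip f f - ip f (avg f) := ip_sub_cexp _ f
  have hCS := ip_cauchy_schwarz (f - avg f) (Fc k0 f + Fc k1 f + Fc k2 f)
  rw [hSG, hVV] at hCS
  have hV0 : 0 ≤ ip f f - ip f (avg f) := by
    rw [← hVV]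
    exact ip_self_nonneg _
  have hS2 := le_two_mul_of_sq_le hV0 hCS hGG
  rw [ip_Fc_self, ip_Fc_self, ip_Fc_self] at hS2
  rw [← ip_avg]
  linarith

/-- **Exchangeability step.**  Let `τ` be an involution of a finite type that preserves the
map `B` and exchanges the maps `Ja` and `Jb`.  If `∑ σ (Ja x) * σ (Jb x) ≤ 0` for every `σ`
with `∑ σ (Ja x) = 0`, then the dual form holds for functions of `B`, of `Ja` and of `Jb`
(the last two with zero sums). -/
theorem dual_of_swap {Ω β J : Type*} [Fintype Ω] (τ : Ω → Ω) (hτ : ∀ x, τ (τ x) = x)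
    (B : Ω → β) (Ja Jb : Ω → J) (hB : ∀ x, B (τ x) = B x) (hJ : ∀ x, Ja (τ x) = Jb x)
    (hNC : ∀ σ : J → ℝ, ∑ x, σ (Ja x) = 0 → ∑ x, σ (Ja x) * σ (Jb x) ≤ 0)
    (G : β → ℝ) (s t : J → ℝ) (hs : ∑ x, s (Ja x) = 0) (ht : ∑ x, t (Jb x) = 0) :
    ∑ x, (G (B x) + s (Ja x) + t (Jb x)) ^ 2
      ≤ 2 * ∑ x, (G (B x) ^ 2 + s (Ja x) ^ 2 + t (Jb x) ^ 2) := by
  have hJ' : ∀ x, Jb (τ x) = Ja x := fun x => by rw [← hJ (τ x), hτ]
  have hinv : ∀ F : Ω → ℝ, ∑ x, F (τ x) = ∑ x, F x := fun F =>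
    Equiv.sum_comp (Function.Involutive.toPerm τ hτ) F
  have hodd : ∀ F : Ω → ℝ, (∀ x, F (τ x) = - F x) → ∑ x, F x = 0 := by
    intro F hF
    have h1 := hinv F
    rw [Finset.sum_congr rfl (fun x _ => hF x), Finset.sum_neg_distrib] at h1
    linarith
  obtain ⟨σ, hσ⟩ : ∃ σ : J → ℝ, ∀ j, σ j = (s j + t j) / 2 := ⟨_, fun _ => rfl⟩
  obtain ⟨δ, hδ⟩ : ∃ δ : J → ℝ, ∀ j, δ j = (s j - t j) / 2 := ⟨_, fun _ => rfl⟩
  have hσ0 : ∑ x, σ (Ja x) = 0 := by
    have h1 : ∑ x, t (Ja x) = 0 := by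
      rw [← hinv (fun x => t (Ja x)), Finset.sum_congr rfl (fun x _ => by rw [hJ x])]
      exact ht
    rw [Finset.sum_congr rfl (fun x _ => hσ (Ja x)), ← Finset.sum_div, Finset.sum_add_distrib,
      hs, h1]
    norm_num
  have hnc := hNC σ hσ0
  have h1 : ∑ x, G (B x) * (δ (Ja x) - δ (Jb x)) = 0 :=
    hodd _ (fun x => by rw [hB, hJ, hJ']; ring)
  have h2 : ∑ x, (σ (Ja x) - σ (Jb x)) * (δ (Ja x) + δ (Jb x)) = 0 :=
    hodd _ (fun x => by rw [hJ, hJ']; ring)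
  have hkey : ∀ x, 2 * (G (B x) ^ 2 + s (Ja x) ^ 2 + t (Jb x) ^ 2)
        - (G (B x) + s (Ja x) + t (Jb x)) ^ 2
      = (G (B x) - (σ (Ja x) + σ (Jb x))) ^ 2 + (δ (Ja x) + δ (Jb x)) ^ 2
        - 4 * (σ (Ja x) * σ (Jb x)) - 2 * (G (B x) * (δ (Ja x) - δ (Jb x)))
        + 2 * ((σ (Ja x) - σ (Jb x)) * (δ (Ja x) + δ (Jb x))) := by
    intro x
    rw [hσ, hσ, hδ, hδ]
    ring
  have hsum : 2 * ∑ x, (G (B x) ^ 2 + s (Ja x) ^ 2 + t (Jb x) ^ 2)
        - ∑ x, (G (B x) + s (Ja x) + t (Jb x)) ^ 2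
      = ∑ x, (G (B x) - (σ (Ja x) + σ (Jb x))) ^ 2 + ∑ x, (δ (Ja x) + δ (Jb x)) ^ 2
        - 4 * ∑ x, σ (Ja x) * σ (Jb x) := by
    rw [Finset.mul_sum, ← Finset.sum_sub_distrib, Finset.sum_congr rfl (fun x _ => hkey x),
      Finset.sum_add_distrib, Finset.sum_sub_distrib, Finset.sum_sub_distrib,
      Finset.sum_add_distrib, ← Finset.mul_sum, ← Finset.mul_sum, ← Finset.mul_sum, h1, h2]
    ring
  have hp1 : 0 ≤ ∑ x, (G (B x) - (σ (Ja x) + σ (Jb x))) ^ 2 :=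
    Finset.sum_nonneg (fun x _ => sq_nonneg _)
  have hp2 : 0 ≤ ∑ x, (δ (Ja x) + δ (Jb x)) ^ 2 :=
    Finset.sum_nonneg (fun x _ => sq_nonneg _)
  linarith

end Vale.Agent.Lib.P328.RP
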