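import Mathlib
import Vale.Agent.Lib.P328.helper14.TransposeChain

/-!
P328: closure of a mixing theorem for the heat bath on two-by-two blocks under transposition.

`mixing22_line_of_rows` : let a mixing bound with time factor `Φ m n` hold for all tables with
two distinguished rows and all other row sums at most one (any column sums).  Then the bound
with any time factor `Ψ m n` above `Φ m n` and `Φ n m` holds for all tables that have two
distinguished rows with all other row sums at most one, or two distinguished columns with all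
other column sums at most one.
-/

namespace Vale.Agent.Lib.P328.RP

open Finset

theorem mixing22_line_of_rows (Φ Ψ : ℕ → ℕ → ℝ)
    (hΨ1 : ∀ m n, Φ m n ≤ Ψ m n) (hΨ2 : ∀ m n, Φ n m ≤ Ψ m n)
    (H : ∀ {m n : ℕ}, 2 ≤ m → 2 ≤ n → ∀ (r : Fin m → ℕ) (i0 i1 : Fin m), i0 ≠ i1 →
      (∀ i, i ≠ i0 → i ≠ i1 → r i ≤ 1) → ∀ (c : Fin n → ℕ) (x : CT m n r c) (ε : ℝ),
      0 < ε → ε ≤ 1 → ∀ t : ℕ,
      Φ m n * (m * n * Real.log (((∑ i, r i : ℕ) : ℝ) + 1) + Real.log (1 / ε)) ≤ t →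
      (1 / 2) * ∑ y, |(heatBath22 m n r c ^ t) x y - 1 / (Fintype.card (CT m n r c) : ℝ)| ≤ ε)
    {m n : ℕ} (hm : 2 ≤ m) (hn : 2 ≤ n) (r : Fin m → ℕ) (c : Fin n → ℕ)
    (hfam : (∃ i0 i1 : Fin m, i0 ≠ i1 ∧ ∀ i, i ≠ i0 → i ≠ i1 → r i ≤ 1) ∨
      (∃ j0 j1 : Fin n, j0 ≠ j1 ∧ ∀ j, j ≠ j0 → j ≠ j1 → c j ≤ 1))
    (x : CT m n r c) (ε : ℝ) (hε : 0 < ε) (hε1 : ε ≤ 1) (t : ℕ)
    (ht : Ψ m n * (m * n * Real.log (((∑ i, r i : ℕ) : ℝ) + 1) + Real.log (1 / ε)) ≤ t) :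
    (1 / 2) * ∑ y, |(heatBath22 m n r c ^ t) x y - 1 / (Fintype.card (CT m n r c) : ℝ)| ≤ ε := by
  have hlog : 0 ≤ Real.log (((∑ i, r i : ℕ) : ℝ) + 1) := by
    apply Real.log_nonneg
    have h0 : (0 : ℝ) ≤ ((∑ i, r i : ℕ) : ℝ) := Nat.cast_nonneg _
    linarith
  have hlogε : 0 ≤ Real.log (1 / ε) := by
    apply Real.log_nonneg
    rw [le_div_iff₀ hε]
    linarith
  have hB : 0 ≤ (m : ℝ) * n * Real.log (((∑ i, r i : ℕ) : ℝ) + 1) + Real.log (1 / ε) := by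
    have hmn : (0 : ℝ) ≤ (m : ℝ) * n := mul_nonneg (Nat.cast_nonneg _) (Nat.cast_nonneg _)
    have := mul_nonneg hmn hlog
    linarith
  rcases hfam with ⟨i0, i1, h01, hr⟩ | ⟨j0, j1, h01, hc⟩
  · exact H hm hn r i0 i1 h01 hr c x ε hε hε1 t
      ((mul_le_mul_of_nonneg_right (hΨ1 m n) hB).trans ht)
  · refine mixing22_of_tr x ε t (H hn hm c j0 j1 h01 hc r (tr x) ε hε hε1 t ?_)
    have hsum : (∑ j, c j : ℕ) = ∑ i, r i := (sum_rows_eq_sum_cols x).symm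
    rw [hsum]
    have hcomm : (n : ℝ) * m = (m : ℝ) * n := mul_comm _ _
    rw [hcomm]
    exact (mul_le_mul_of_nonneg_right (hΨ2 m n) hB).trans ht

end Vale.Agent.Lib.P328.RP
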