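import Mathlib
import Vale.Agent.Lib.P328.RP.Restricted
import Vale.Agent.Lib.P328.RP.Family

/-!
P328: versions of the transfer, of the gap theorems and of the mixing bounds in which the
three-row inequality is only assumed for the column sums that occur by conditioning.

For a table `x0 : CT m n r c` and three rows `φ : Fin 3 ↪ Fin m`, the conditioned column sums
are `fun j => ∑ a, x0.1 (φ a) j`.

* `block_transfer_col` : transfer of a block inequality to the rows `φ a`, assuming it only
  for the `k × n` systems with row sums `r ∘ φ` and the conditioned column sums.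
* `hgap_of_threeRow_col`, `gap22_of_threeRow_col` : the row-pair gap and the two-by-two gap.
* `mixing_of_threeRow_col`, `mixing22_of_threeRow_col` : the mixing bounds.
-/

namespace Vale.Agent.Lib.P328.RP

open Finset
open Vale.Agent.Lib.P335.Bip
open BlockTransfer

/-- **Transfer of block inequalities, conditioned column sums.**  A linear inequality between the
quadratic forms of block resamplings that holds on all `k × n` tables with row sums `r ∘ φ`
and the conditioned column sums holds, inside the `k` rows `φ a`, on all `m × n` tables with row sums `r`. -/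
theorem block_transfer_col {k n : ℕ} {ι : Type*} (s : Finset ι) (a : ι → ℝ)
    (P : ι → Finset (Fin k)) (Q : ι → Finset (Fin n)) (b : ℝ)
    {m : ℕ} {r : Fin m → ℕ} (φ : Fin k ↪ Fin m) {c : Fin n → ℕ}
    (h : ∀ (x0 : CT m n r c) (g : CT k n (r ∘ φ) (fun j => ∑ a, x0.1 (φ a) j) → ℝ),
      ∑ α ∈ s, a α * ip g (E (P α) (Q α) g) ≤ b * ip g g)
    (f : CT m n r c → ℝ) :
    ∑ α ∈ s, a α * ip f (E ((P α).map φ) (Q α) f) ≤ b * ip f f := by
  have hL : ∑ α ∈ s, a α * ip f (E ((P α).map φ) (Q α) f)
      = ∑ x, ∑ α ∈ s, a α * (f x * E ((P α).map φ) (Q α) f x) := by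
    unfold ip
    rw [Finset.sum_comm]
    refine Finset.sum_congr rfl (fun α _ => ?_)
    rw [Finset.mul_sum]
  have hR : b * ip f f = ∑ x, b * (f x * f x) := by
    unfold ip
    rw [Finset.mul_sum]
  rw [hL, hR]
  apply sum_le_sum_of_classes ((univ : Finset (Fin k)).map φ)
  intro x0
  rw [sum_class, sum_class]
  have key := h x0 (fun z => f (iota φ x0 z))
  have hLk : ∑ α ∈ s, a α * ip (fun z => f (iota φ x0 z))
        (E (P α) (Q α) (fun z => f (iota φ x0 z)))
      = ∑ z, ∑ α ∈ s, a α * (f (iota φ x0 z) * E ((P α).map φ) (Q α) f (iota φ x0 z)) := by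
    unfold ip
    rw [Finset.sum_comm]
    refine Finset.sum_congr rfl (fun α _ => ?_)
    rw [Finset.mul_sum]
    refine Finset.sum_congr rfl (fun z _ => ?_)
    rw [E_iota]
  have hRk : b * ip (fun z => f (iota φ x0 z)) (fun z => f (iota φ x0 z))
      = ∑ z, b * (f (iota φ x0 z) * f (iota φ x0 z)) := by
    unfold ip
    rw [Finset.mul_sum]
  rw [← hLk, ← hRk]
  exact key

/-- **Row triples, conditioned column sums.**  The three-row inequality for the row sums `r ∘ φ`
transfers to the row triple `φ 0, φ 1, φ 2` of the tables with row sums `r`. -/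
theorem triple_of_threeRow_E_col {n m : ℕ} {r : Fin m → ℕ} (φ : Fin 3 ↪ Fin m)
    {c : Fin n → ℕ}
    (h3 : ∀ (x0 : CT m n r c) (g : CT 3 n (r ∘ φ) (fun j => ∑ a, x0.1 (φ a) j) → ℝ),
      ∑ q ∈ (univ : Finset (Fin 3)).powersetCard 2, ip g (R q g) ≤ 2 * ip g g + ip g (R univ g))
    (f : CT m n r c → ℝ) :
    ∑ p ∈ ((univ : Finset (Fin 3)).map φ).powersetCard 2, ip f (R p f)
      ≤ 2 * ip f f + ip f (R ((univ : Finset (Fin 3)).map φ) f) := by
  classical
  set s : Finset (Option (Finset (Fin 3))) :=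
    insertNone ((univ : Finset (Fin 3)).powersetCard 2) with hs
  set a : Option (Finset (Fin 3)) → ℝ := fun o => if o = none then -1 else 1 with ha
  set P : Option (Finset (Fin 3)) → Finset (Fin 3) := fun o => o.getD univ with hP
  have h : ∀ (x0 : CT m n r c) (g : CT 3 n (r ∘ φ) (fun j => ∑ a, x0.1 (φ a) j) → ℝ),
      ∑ α ∈ s, a α * ip g (E (P α) (univ : Finset (Fin n)) g) ≤ 2 * ip g g := by
    intro x0 g
    have h' := h3 x0 g
    rw [hs, Finset.sum_insertNone]
    simp only [ha, hP, Option.getD_none, Option.getD_some, if_true, reduceCtorEq, if_false,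
      one_mul, E_univ_right]
    linarith
  have key := block_transfer_col s a P (fun _ => (univ : Finset (Fin n))) 2 φ h f
  rw [hs, Finset.sum_insertNone] at key
  simp only [ha, hP, Option.getD_none, Option.getD_some, if_true, reduceCtorEq, if_false,
    one_mul, E_univ_right] at key
  rw [powersetCard_map, Finset.sum_map]
  simp only [RelEmbedding.coe_toEmbedding, mapEmbedding_apply]
  linarith

/-- The row-pair heat-bath gap for the tables with row sums `r`, given the three-row inequality
for the row sums of every triple of rows. -/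
theorem hgap_of_threeRow_col {n m : ℕ} (r : Fin m → ℕ) (c : Fin n → ℕ)
    (h3 : ∀ (φ : Fin 3 ↪ Fin m) (x0 : CT m n r c)
      (g : CT 3 n (r ∘ φ) (fun j => ∑ a, x0.1 (φ a) j) → ℝ),
      ∑ q ∈ (univ : Finset (Fin 3)).powersetCard 2, ip g (R q g) ≤ 2 * ip g g + ip g (R univ g))
    (f : CT m n r c → ℝ) :
    ip f f - ip f (R univ f)
      ≤ ∑ p ∈ (univ : Finset (Fin m)).powersetCard 2, (ip f f - ip f (R p f)) := by
  classical
  set H : (CT m n r c → ℝ) →ₗ[ℝ] (CT m n r c → ℝ) :=
    ∑ p ∈ (univ : Finset (Fin m)).powersetCard 2, PR p with hH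
  have hHapp : ∀ g, H g = ∑ p ∈ (univ : Finset (Fin m)).powersetCard 2, PR p g := by
    intro g
    rw [hH, LinearMap.sum_apply]
  have hform : ∀ g, ip g (H g)
      = ∑ p ∈ (univ : Finset (Fin m)).powersetCard 2, (ip g g - ip g (R p g)) := by
    intro g
    rw [hHapp, ip_sum_right]
    exact Finset.sum_congr rfl (fun p _ => ip_PR p g)
  have hsq : ∀ g, ip g (H g) ≤ ip (H g) (H g) := by
    intro g
    rw [hHapp]
    refine knabe (fun p => PR p) (fun T => R T) (fun p _ => PR_symm p) (fun p _ => PR_idem p)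
      (fun p q _ _ hd => PR_comm p q hd) (fun T _ => R_symm T) (fun T _ => R_idem T) ?_ ?_ g
    · intro T _ p hp g'
      exact PR_R_of_subset (Finset.mem_powersetCard.mp hp).1 g'
    · intro T hT g'
      obtain ⟨φ, rfl⟩ : ∃ φ : Fin 3 ↪ Fin m, (univ : Finset (Fin 3)).map φ = T :=
        ⟨(T.orderEmbOfFin hT).toEmbedding, map_orderEmbOfFin_univ T hT⟩
      have h1 := triple_of_threeRow_E_col φ (h3 φ) g'
      have h2 : ∑ p ∈ ((univ : Finset (Fin 3)).map φ).powersetCard 2, ip g' (PR p g')
          = 3 * ip g' g'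
            - ∑ p ∈ ((univ : Finset (Fin 3)).map φ).powersetCard 2, ip g' (R p g') := by
        rw [Finset.sum_congr rfl (fun p _ => ip_PR p g'), Finset.sum_sub_distrib,
          Finset.sum_const, Finset.card_powersetCard, hT]
        norm_num
      rw [h2]
      linarith
  have hker : ∀ g, H g = 0 → R univ g = g := by
    intro g hg
    have h0 : ip g (H g) = 0 := by rw [hg, ip_zero_right]
    rw [hform] at h0
    have hterm : ∀ p ∈ (univ : Finset (Fin m)).powersetCard 2, ip g g - ip g (R p g) = 0 := by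
      have hnn : ∀ p ∈ (univ : Finset (Fin m)).powersetCard 2, 0 ≤ ip g g - ip g (R p g) :=
        fun p _ => sub_nonneg.mpr (ip_cexp_le _ g)
      exact (Finset.sum_eq_zero_iff_of_nonneg hnn).mp h0
    have hfix : ∀ p : Finset (Fin m), p.card = 2 → R p g = g := by
      intro p hp
      have h1 := hterm p (Finset.mem_powersetCard.mpr ⟨Finset.subset_univ _, hp⟩)
      have h2 : ip (g - R p g) (g - R p g) = 0 := by
        rw [← h1]
        exact ip_sub_cexp _ g
      have h3' := ip_self_eq_zero.mp h2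
      exact (sub_eq_zero.mp h3').symm
    exact cexp_of_factor _ (fun x y _ => const_of_fixed g hfix x y)
  have key := gap_of_sq H (R univ)
    (by
      intro g h
      rw [hHapp, hHapp, ip_sum_right, ip_sum_left]
      exact Finset.sum_congr rfl (fun p _ => PR_symm p g h))
    (R_symm univ)
    (by
      intro g
      rw [hHapp]
      exact Finset.sum_eq_zero (fun p _ => PR_R_of_subset (Finset.subset_univ p) g))
    (by
      intro g
      rw [hform]
      exact Finset.sum_nonneg (fun p _ => sub_nonneg.mpr (ip_cexp_le _ g)))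
    hsq hker f
  rw [hform] at key
  exact key

/-- The gap of the heat bath on two-by-two blocks for the tables with row sums `r`, given the
three-row inequality for the row sums of every triple of rows. -/
theorem gap22_of_threeRow_col {n m : ℕ} (r : Fin m → ℕ) (c : Fin n → ℕ)
    (h3 : ∀ (φ : Fin 3 ↪ Fin m) (x0 : CT m n r c)
      (g : CT 3 n (r ∘ φ) (fun j => ∑ a, x0.1 (φ a) j) → ℝ),
      ∑ q ∈ (univ : Finset (Fin 3)).powersetCard 2, ip g (R q g) ≤ 2 * ip g g + ip g (R univ g))
    (f : CT m n r c → ℝ) :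
    1 * (ip f f - ip f (R univ f))
      ≤ ∑ p ∈ (univ : Finset (Fin m)).powersetCard 2,
          ∑ q ∈ (univ : Finset (Fin n)).powersetCard 2, (ip f f - ip f (E p q f)) := by
  rw [one_mul]
  refine (hgap_of_threeRow_col r c h3 f).trans ?_
  exact Finset.sum_le_sum (fun p hp => pair_block_gap p (Finset.mem_powersetCard.mp hp).2 f)

/-- The row-pair heat bath on the tables with margins `r`, `c` mixes in
`m ^ 2 (m n log (N + 1) + log (1 / ε))` steps, given the three-row inequality for the row sums
of every triple of rows and the conditioned column sums. -/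
theorem mixing_of_threeRow_col {m n : ℕ} (hm : 2 ≤ m) (r : Fin m → ℕ) (c : Fin n → ℕ)
    (h3 : ∀ (φ : Fin 3 ↪ Fin m) (x0 : CT m n r c)
      (g : CT 3 n (r ∘ φ) (fun j => ∑ a, x0.1 (φ a) j) → ℝ),
      ∑ q ∈ (univ : Finset (Fin 3)).powersetCard 2, ip g (R q g) ≤ 2 * ip g g + ip g (R univ g))
    (x : CT m n r c) (ε : ℝ) (hε : 0 < ε) (hε1 : ε ≤ 1) (t : ℕ)
    (ht : (m : ℝ) ^ 2 * (m * n * Real.log (((∑ i, r i : ℕ) : ℝ) + 1) + Real.log (1 / ε)) ≤ t) :
    (1 / 2) * ∑ y, |(heatBath m n r c ^ t) x y - 1 / (Fintype.card (CT m n r c) : ℝ)| ≤ ε :=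
  mixing_of_hgap hm r c (hgap_of_threeRow_col r c h3) x ε hε hε1 t ht

/-- The heat bath on two-by-two blocks of the tables with margins `r`, `c` mixes in
`m ^ 2 n ^ 2 (m n log (N + 1) + log (1 / ε))` steps, given the three-row inequality for the
row sums of every triple of rows and the conditioned column sums. -/
theorem mixing22_of_threeRow_col {m n : ℕ} (hm : 2 ≤ m) (hn : 2 ≤ n) (r : Fin m → ℕ)
    (c : Fin n → ℕ)
    (h3 : ∀ (φ : Fin 3 ↪ Fin m) (x0 : CT m n r c)
      (g : CT 3 n (r ∘ φ) (fun j => ∑ a, x0.1 (φ a) j) → ℝ),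
      ∑ q ∈ (univ : Finset (Fin 3)).powersetCard 2, ip g (R q g) ≤ 2 * ip g g + ip g (R univ g))
    (x : CT m n r c) (ε : ℝ) (hε : 0 < ε) (hε1 : ε ≤ 1) (t : ℕ)
    (ht : (m : ℝ) ^ 2 * (n : ℝ) ^ 2 *
      (m * n * Real.log (((∑ i, r i : ℕ) : ℝ) + 1) + Real.log (1 / ε)) ≤ t) :
    (1 / 2) * ∑ y, |(heatBath22 m n r c ^ t) x y - 1 / (Fintype.card (CT m n r c) : ℝ)| ≤ ε := by
  refine mixing22_of_gap hm hn r c 1 one_pos le_rfl (gap22_of_threeRow_col r c h3) x ε hε hε1 t ?_
  rw [div_one]
  exact ht

end Vale.Agent.Lib.P328.RP
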