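import Mathlib
import Vale.Agent.Lib.P328.helper14.RestrictedCol
import Vale.Agent.Lib.P328.helper14.Reservoir
import Vale.Agent.Lib.P328.RP.FamilyUnit
import Vale.Agent.Lib.P328.helper12.TwoSmallRows

/-!
P328: two arbitrary rows, all other row sums at most one, and one big column.

Let `r`, `c` be margins of `m × n` tables in which all rows except two rows `i0`, `i1` have sum
at most one.  If both `r i0` and `r i1` are at least two, assume that some column `j0` has
`c j0 ≥ N - min (r i0) (r i1)`, `N` the sum of all entries (that is, the other columns together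
have sum at most `min (r i0) (r i1)`).  Then the heat bath on two-by-two blocks and the row-pair
heat bath mix within the bounds of `mixing22_of_threeRow_col`, `mixing_of_threeRow_col`, with
no further hypothesis.

The triples of rows with two rows of sum at most one are handled by
`threeRow_rows_of_two_small`; a triple that consists of the two big rows and a row of sum one
has, after conditioning on the other rows, a column `j0` whose sum exceeds both big row sums,
and `threeRow_of_reservoir` applies.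
-/

namespace Vale.Agent.Lib.P328.RP

open Finset
open Vale.Agent.Lib.P335.Bip

namespace ResFam

/-- the column sum of `j0` inside three rows is at least `c j0` minus the sums of the other
rows -/
theorem cond_col {m n : ℕ} {r : Fin m → ℕ} {c : Fin n → ℕ} (φ : Fin 3 ↪ Fin m)
    (x0 : CT m n r c) (j0 : Fin n) :
    c j0 + (r (φ 0) + r (φ 1) + r (φ 2)) ≤ ∑ a, x0.1 (φ a) j0 + ∑ i, r i := by
  classical
  have h1 : ∑ a, x0.1 (φ a) j0 + ∑ i ∈ ((univ : Finset (Fin 3)).map φ)ᶜ, x0.1 i j0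
      = ∑ i, x0.1 i j0 := by
    rw [← Finset.sum_add_sum_compl ((univ : Finset (Fin 3)).map φ) (fun i => x0.1 i j0),
      Finset.sum_map]
  have h2 : r (φ 0) + r (φ 1) + r (φ 2) + ∑ i ∈ ((univ : Finset (Fin 3)).map φ)ᶜ, r i
      = ∑ i, r i := by
    rw [← Finset.sum_add_sum_compl ((univ : Finset (Fin 3)).map φ) (fun i => r i),
      Finset.sum_map, Fin.sum_univ_three]
  have h3 : ∑ i ∈ ((univ : Finset (Fin 3)).map φ)ᶜ, x0.1 i j0
      ≤ ∑ i ∈ ((univ : Finset (Fin 3)).map φ)ᶜ, r i :=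
    Finset.sum_le_sum (fun i _ => entry_le x0 i j0)
  have h4 : ∑ i, x0.1 i j0 = c j0 := x0.2.2 j0
  omega

/-- the three-row inequality for a triple of rows with a row of sum at most one and the
conditioned column sums -/
theorem triple {m n : ℕ} (r : Fin m → ℕ) (c : Fin n → ℕ) (j0 : Fin n)
    (φ : Fin 3 ↪ Fin m)
    (hpair : ∀ b b' : Fin 3, b ≠ b' → 2 ≤ r (φ b) → 2 ≤ r (φ b') →
      ∑ l, r l ≤ c j0 + r (φ b))
    (k : Fin 3) (hk : r (φ k) ≤ 1) (x0 : CT m n r c)
    (g : CT 3 n (r ∘ φ) (fun j => ∑ a, x0.1 (φ a) j) → ℝ) :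
    ∑ q ∈ (univ : Finset (Fin 3)).powersetCard 2, ip g (R q g)
      ≤ 2 * ip g g + ip g (R univ g) := by
  classical
  rcases Nat.lt_or_ge (r (φ k)) 1 with h0 | h1
  · have hz : (r ∘ φ) k = 0 := by
      show r (φ k) = 0
      omega
    exact threeRow_of_zero_row (r ∘ φ) _ k hz g
  · have hk1 : r (φ k) = 1 := le_antisymm hk h1
    refine threeRow_of_perm (r ∘ φ) _ (Equiv.swap 2 k) ?_ g
    intro g'
    have hs2 : Equiv.swap 2 k 2 = k := Equiv.swap_apply_left 2 k
    have h2 : ((r ∘ φ) ∘ Equiv.swap 2 k) 2 = 1 := by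
      show r (φ (Equiv.swap 2 k 2)) = 1
      rw [hs2]
      exact hk1
    have hS : r (φ (Equiv.swap 2 k 0)) + r (φ (Equiv.swap 2 k 1)) + r (φ (Equiv.swap 2 k 2))
        = r (φ 0) + r (φ 1) + r (φ 2) := by
      have h := Equiv.sum_comp (Equiv.swap 2 k) (fun b => r (φ b))
      rw [Fin.sum_univ_three, Fin.sum_univ_three] at h
      exact h
    rw [hs2, hk1] at hS
    have hcol := cond_col φ x0 j0
    by_cases ha : r (φ (Equiv.swap 2 k 0)) ≤ 1
    · exact threeRow_of_rows _ _ (fun g'' hg'' =>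
        threeRow_rows_of_two_small _ _ 0 2 (by decide) ha (le_of_eq h2) g'' hg'') g'
    · by_cases hb : r (φ (Equiv.swap 2 k 1)) ≤ 1
      · exact threeRow_of_rows _ _ (fun g'' hg'' =>
          threeRow_rows_of_two_small _ _ 1 2 (by decide) hb (le_of_eq h2) g'' hg'') g'
      · have hne : Equiv.swap 2 k 0 ≠ Equiv.swap 2 k 1 :=
          fun h => absurd ((Equiv.swap 2 k).injective h) (by decide)
        have ha' := hpair _ _ hne (by omega) (by omega)
        have hb' := hpair _ _ hne.symm (by omega) (by omega)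
        refine threeRow_of_reservoir _ _ h2 j0 ?_ ?_ g'
        · show r (φ (Equiv.swap 2 k 0)) + 1 ≤ ∑ a, x0.1 (φ a) j0
          omega
        · show r (φ (Equiv.swap 2 k 1)) + 1 ≤ ∑ a, x0.1 (φ a) j0
          omega

/-- the hypothesis of `triple` for the family -/
theorem pair_of {m n : ℕ} (r : Fin m → ℕ) (i0 i1 : Fin m)
    (hr : ∀ i, i ≠ i0 → i ≠ i1 → r i ≤ 1) (c : Fin n → ℕ) (j0 : Fin n)
    (hres : 2 ≤ r i0 → 2 ≤ r i1 → ∑ l, r l ≤ c j0 + r i0 ∧ ∑ l, r l ≤ c j0 + r i1)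
    (φ : Fin 3 ↪ Fin m) (b b' : Fin 3) (hbb : b ≠ b') (hb : 2 ≤ r (φ b))
    (hb' : 2 ≤ r (φ b')) : ∑ l, r l ≤ c j0 + r (φ b) := by
  have hne : φ b ≠ φ b' := fun h => hbb (φ.injective h)
  have hmem : ∀ i, 2 ≤ r i → i = i0 ∨ i = i1 := by
    intro i hi
    by_contra hcon
    push Not at hcon
    have := hr i hcon.1 hcon.2
    omega
  rcases hmem _ hb with h | h
  · rcases hmem _ hb' with h' | h'
    · exact absurd (h.trans h'.symm) hne
    · rw [h] at hb ⊢
      rw [h'] at hb'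
      exact (hres hb hb').1
  · rcases hmem _ hb' with h' | h'
    · rw [h] at hb ⊢
      rw [h'] at hb'
      exact (hres hb' hb).2
    · exact absurd (h.trans h'.symm) hne

end ResFam

/-- **Two arbitrary rows, all other row sums at most one, one big column**: the heat bath on
two-by-two blocks.  If both `r i0` and `r i1` are at least two, the column `j0` is assumed to
satisfy `N ≤ c j0 + r i0` and `N ≤ c j0 + r i1`, `N = ∑ l, r l`. -/
theorem mixing22_two_fat_reservoir {m n : ℕ} (hm : 2 ≤ m) (hn : 2 ≤ n) (r : Fin m → ℕ)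
    (i0 i1 : Fin m) (hr : ∀ i, i ≠ i0 → i ≠ i1 → r i ≤ 1) (c : Fin n → ℕ) (j0 : Fin n)
    (hres : 2 ≤ r i0 → 2 ≤ r i1 → ∑ l, r l ≤ c j0 + r i0 ∧ ∑ l, r l ≤ c j0 + r i1)
    (x : CT m n r c) (ε : ℝ) (hε : 0 < ε) (hε1 : ε ≤ 1) (t : ℕ)
    (ht : (m : ℝ) ^ 2 * (n : ℝ) ^ 2 *
      (m * n * Real.log (((∑ i, r i : ℕ) : ℝ) + 1) + Real.log (1 / ε)) ≤ t) :
    (1 / 2) * ∑ y, |(heatBath22 m n r c ^ t) x y - 1 / (Fintype.card (CT m n r c) : ℝ)|
      ≤ ε := by
  refine mixing22_of_threeRow_col hm hn r c (fun φ x0 g => ?_) x ε hε hε1 t ht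
  obtain ⟨k, hk0, hk1⟩ := FamilyUnit.exists_third φ i0 i1
  exact ResFam.triple r c j0 φ (ResFam.pair_of r i0 i1 hr c j0 hres φ) k (hr (φ k) hk0 hk1) x0 g

/-- **Two arbitrary rows, all other row sums at most one, one big column**: the row-pair heat
bath. -/
theorem mixing_two_fat_reservoir {m n : ℕ} (hm : 2 ≤ m) (r : Fin m → ℕ)
    (i0 i1 : Fin m) (hr : ∀ i, i ≠ i0 → i ≠ i1 → r i ≤ 1) (c : Fin n → ℕ) (j0 : Fin n)
    (hres : 2 ≤ r i0 → 2 ≤ r i1 → ∑ l, r l ≤ c j0 + r i0 ∧ ∑ l, r l ≤ c j0 + r i1)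
    (x : CT m n r c) (ε : ℝ) (hε : 0 < ε) (hε1 : ε ≤ 1) (t : ℕ)
    (ht : (m : ℝ) ^ 2 * (m * n * Real.log (((∑ i, r i : ℕ) : ℝ) + 1) + Real.log (1 / ε)) ≤ t) :
    (1 / 2) * ∑ y, |(heatBath m n r c ^ t) x y - 1 / (Fintype.card (CT m n r c) : ℝ)| ≤ ε := by
  refine mixing_of_threeRow_col hm r c (fun φ x0 g => ?_) x ε hε hε1 t ht
  obtain ⟨k, hk0, hk1⟩ := FamilyUnit.exists_third φ i0 i1
  exact ResFam.triple r c j0 φ (ResFam.pair_of r i0 i1 hr c j0 hres φ) k (hr (φ k) hk0 hk1) x0 g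

end Vale.Agent.Lib.P328.RP
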