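import Mathlib
import Vale.Agent.Lib.P328.helper12.SmallRows
import Vale.Agent.Lib.P328.helper30.ColReduce
import Vale.Agent.Lib.P328.helper26.SmallAll
import Vale.Agent.Lib.P328.helper14.FamilyHubBig
import Vale.Agent.Lib.P328.RP.BigRows
import Vale.Agent.Lib.P328.RP.BigRowsCT
import Vale.Agent.Lib.P328.helper74.TwoFatUnit
import Vale.Agent.Lib.P328.helper14.TransposeChain

/-!
P328: one mixing bound for the heat bath on two-by-two blocks that covers all the unconditional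
families of margins, for the rows or for the columns.

* `mixing22_row_families` : every row sum at most two; or all row sums except two at most one;
  or a column `j0` such that every row sum is at most one or at least the sum of the other
  column sums.  Step count `4 m ^ 3 n ^ 3 (m n log (N + 1) + log (1 / ε))`.
* `mixing22_families` : the same three families for the rows or, transposed, for the columns
  (the heat bath on two-by-two blocks commutes with transposition).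
-/

namespace Vale.Agent.Lib.P328.RP

open Finset

/-- the step count `4 m ^ 3 n ^ 3 (...)` dominates `m ^ 2 n ^ 2 (...)` -/
theorem steps_weaken {m n : ℕ} (hm : 2 ≤ m) (hn : 2 ≤ n) (N : ℕ) (ε : ℝ) (hε : 0 < ε)
    (hε1 : ε ≤ 1) (t : ℕ)
    (ht : 4 * (m : ℝ) ^ 3 * (n : ℝ) ^ 3 *
      (m * n * Real.log ((N : ℝ) + 1) + Real.log (1 / ε)) ≤ t) :
    (m : ℝ) ^ 2 * (n : ℝ) ^ 2 * (m * n * Real.log ((N : ℝ) + 1) + Real.log (1 / ε)) ≤ t := by
  have hm2 : (2 : ℝ) ≤ (m : ℝ) := by exact_mod_cast hm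
  have hn2 : (2 : ℝ) ≤ (n : ℝ) := by exact_mod_cast hn
  have hA : 0 ≤ (m : ℝ) * n * Real.log ((N : ℝ) + 1) + Real.log (1 / ε) := by
    have h1 : 0 ≤ Real.log ((N : ℝ) + 1) := by
      apply Real.log_nonneg
      have : (0 : ℝ) ≤ (N : ℝ) := Nat.cast_nonneg _
      linarith
    have h2 : 0 ≤ Real.log (1 / ε) := by
      apply Real.log_nonneg
      rw [le_div_iff₀ hε]
      linarith
    have h3 : 0 ≤ (m : ℝ) * n := by positivity
    have := mul_nonneg h3 h1
    linarith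
  refine le_trans ?_ ht
  apply mul_le_mul_of_nonneg_right _ hA
  have ha : (m : ℝ) ^ 2 ≤ (m : ℝ) ^ 3 := by nlinarith [sq_nonneg (m : ℝ)]
  have hb : (n : ℝ) ^ 2 ≤ (n : ℝ) ^ 3 := by nlinarith [sq_nonneg (n : ℝ)]
  have h1 : (m : ℝ) ^ 2 * (n : ℝ) ^ 2 ≤ (m : ℝ) ^ 3 * (n : ℝ) ^ 3 :=
    mul_le_mul ha hb (by positivity) (by positivity)
  have h2 : 0 ≤ (m : ℝ) ^ 3 * (n : ℝ) ^ 3 := by positivity
  linarith

/-- **The three row families.**  Every row sum at most two; or all row sums except those of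
two rows at most one; or a column `j0` such that every row sum is at most one or at least the
sum of the column sums other than `c j0`. -/
theorem mixing22_row_families {m n : ℕ} (hm : 2 ≤ m) (hn : 2 ≤ n) (r : Fin m → ℕ)
    (c : Fin n → ℕ)
    (h : (∀ i, r i ≤ 2) ∨ (∃ i0 i1 : Fin m, ∀ i, i ≠ i0 → i ≠ i1 → r i ≤ 1) ∨
      (∃ j0 : Fin n, ∀ i, r i ≤ 1 ∨ ∑ j ∈ univ.erase j0, c j ≤ r i))
    (x : CT m n r c) (ε : ℝ) (hε : 0 < ε) (hε1 : ε ≤ 1) (t : ℕ)
    (ht : 4 * (m : ℝ) ^ 3 * (n : ℝ) ^ 3 *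
      (m * n * Real.log (((∑ i, r i : ℕ) : ℝ) + 1) + Real.log (1 / ε)) ≤ t) :
    (1 / 2) * ∑ y, |(heatBath22 m n r c ^ t) x y - 1 / (Fintype.card (CT m n r c) : ℝ)| ≤ ε := by
  have ht' := steps_weaken hm hn (∑ i, r i) ε hε hε1 t ht
  rcases h with h2 | ⟨i0, i1, hr⟩ | ⟨j0, hrow⟩
  · exact mixing22_small_rows_of hm hn r
      (fun s h12 h2' c' g h0 =>
        Vale.Agent.Lib.P328.H30.rows_of_canonical s
          (by
            rw [Fin.sum_univ_three]
            rcases h12 0 with a | a <;> rcases h12 1 with b | b <;> rcases h12 2 with d | d <;>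
              omega)
          (fun c6 hc g6 h6 => Vale.Agent.Lib.P328.Small.rows_le_two6 s h12 h2' c6 hc g6 h6)
          c' g h0)
      (Or.inl h2) c x ε hε hε1 t ht'
  · exact mixing22_two_fat_unit hm hn r i0 i1 hr c x ε hε hε1 t ht
  · exact mixing22_hub_big_of hm hn
      (fun r' c' j0' h g => threeRow_big_of threeProj_CP r' c' j0' h g)
      r c j0 hrow x ε hε hε1 t ht'

/-- **All the unconditional families, for the rows or for the columns.** -/
theorem mixing22_families {m n : ℕ} (hm : 2 ≤ m) (hn : 2 ≤ n) (r : Fin m → ℕ)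
    (c : Fin n → ℕ)
    (h : ((∀ i, r i ≤ 2) ∨ (∃ i0 i1 : Fin m, ∀ i, i ≠ i0 → i ≠ i1 → r i ≤ 1) ∨
        (∃ j0 : Fin n, ∀ i, r i ≤ 1 ∨ ∑ j ∈ univ.erase j0, c j ≤ r i)) ∨
      ((∀ j, c j ≤ 2) ∨ (∃ j0 j1 : Fin n, ∀ j, j ≠ j0 → j ≠ j1 → c j ≤ 1) ∨
        (∃ i0 : Fin m, ∀ j, c j ≤ 1 ∨ ∑ i ∈ univ.erase i0, r i ≤ c j)))
    (x : CT m n r c) (ε : ℝ) (hε : 0 < ε) (hε1 : ε ≤ 1) (t : ℕ)
    (ht : 4 * (m : ℝ) ^ 3 * (n : ℝ) ^ 3 *
      (m * n * Real.log (((∑ i, r i : ℕ) : ℝ) + 1) + Real.log (1 / ε)) ≤ t) :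
    (1 / 2) * ∑ y, |(heatBath22 m n r c ^ t) x y - 1 / (Fintype.card (CT m n r c) : ℝ)| ≤ ε := by
  rcases h with hrows | hcols
  · exact mixing22_row_families hm hn r c hrows x ε hε hε1 t ht
  · refine mixing22_of_tr x ε t (mixing22_row_families hn hm c r hcols (tr x) ε hε hε1 t ?_)
    have hsum : (∑ j, c j : ℕ) = ∑ i, r i := (sum_rows_eq_sum_cols x).symm
    rw [hsum]
    have e : 4 * (n : ℝ) ^ 3 * (m : ℝ) ^ 3 *
          ((n : ℝ) * m * Real.log (((∑ i, r i : ℕ) : ℝ) + 1) + Real.log (1 / ε))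
        = 4 * (m : ℝ) ^ 3 * (n : ℝ) ^ 3 *
          ((m : ℝ) * n * Real.log (((∑ i, r i : ℕ) : ℝ) + 1) + Real.log (1 / ε)) := by
      ring
    rw [e]
    exact ht

end Vale.Agent.Lib.P328.RP
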